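import Vale.Agent.P181.H280.Core
import Mathlib.Algebra.MvPolynomial.PDeriv
import Mathlib.RingTheory.Derivation.Basic

set_option autoImplicit false

open scoped TensorProduct

namespace Vale.Agent.P181.H280

open Vale.Agent.P181 Finset

variable {A : Type*} [CommRing A] [Algebra ℂ A]

lemma sum_sign_right {a : ℕ} (g : Equiv.Perm (Fin a) → ℂ) {j j' : Fin a} (hj : j ≠ j') :
    ∑ σ : Equiv.Perm (Fin a), ((Equiv.Perm.sign σ : ℤ) : ℂ) * g σ =
      - ∑ σ : Equiv.Perm (Fin a), ((Equiv.Perm.sign σ : ℤ) : ℂ) * g (σ * Equiv.swap j j') := by
  rw [← Equiv.sum_comp (Equiv.mulRight (Equiv.swap j j')), ← Finset.sum_neg_distrib]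
  apply Finset.sum_congr rfl
  intro σ _
  simp only [Equiv.coe_mulRight]
  rw [map_mul, Equiv.Perm.sign_swap hj]
  simp

lemma sum_sign_right_zero {a : ℕ} (g : Equiv.Perm (Fin a) → ℂ) {j j' : Fin a} (hj : j ≠ j')
    (hg : ∀ σ, g (σ * Equiv.swap j j') = g σ) :
    ∑ σ : Equiv.Perm (Fin a), ((Equiv.Perm.sign σ : ℤ) : ℂ) * g σ = 0 := by
  have h1 := sum_sign_right g hj
  simp only [hg] at h1
  exact self_eq_neg.1 h1

lemma sum_sign_left_zero {a : ℕ} (g : Equiv.Perm (Fin a) → ℂ) {j j' : Fin a} (hj : j ≠ j')
    (hg : ∀ σ, g (Equiv.swap j j' * σ) = g σ) :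
    ∑ σ : Equiv.Perm (Fin a), ((Equiv.Perm.sign σ : ℤ) : ℂ) * g σ = 0 := by
  have h1 : ∑ σ : Equiv.Perm (Fin a), ((Equiv.Perm.sign σ : ℤ) : ℂ) * g σ =
      - ∑ σ : Equiv.Perm (Fin a), ((Equiv.Perm.sign σ : ℤ) : ℂ) * g (Equiv.swap j j' * σ) := by
    rw [← Equiv.sum_comp (Equiv.mulLeft (Equiv.swap j j')), ← Finset.sum_neg_distrib]
    apply Finset.sum_congr rfl
    intro σ _
    simp only [Equiv.coe_mulLeft]
    rw [map_mul, Equiv.Perm.sign_swap hj]
    simp
  simp only [hg] at h1
  exact self_eq_neg.1 h1

/-- Infinitesimal highest weight conditions on an `a`-linear form, in degree `b`. -/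
def HWForm {a : ℕ} (x : Fin a → A) (D : Fin a → Derivation ℂ A A) (S : ℕ → Submodule ℂ A)
    (b : ℕ) (c : Fin a → ℂ) (F : MultilinearMap ℂ (fun _ : Fin a => A) ℂ) : Prop :=
  ∀ m k : Fin a, m ≤ k → ∀ P : Fin a → A, (∀ i, P i ∈ S b) →
    ∑ i, F (Function.update P i (x k * D m (P i))) = (if k = m then c m else 0) * F P

section

variable {a : ℕ} {x : Fin a → A} {D : Fin a → Derivation ℂ A A} {S : ℕ → Submodule ℂ A}

lemma deriv_mul (hDx : ∀ m k, D m (x k) = if k = m then 1 else 0) (m k l : Fin a) (P : A) :
    x k * D m (x l * P) = x l * (x k * D m P) + (if l = m then x k * P else 0) := by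
  rw [Derivation.leibniz, hDx]
  simp only [smul_eq_mul]
  split_ifs <;> ring

/-- The contraction with the determinant lowers all weights by one. -/
theorem hwForm_altC (hDx : ∀ m k, D m (x k) = if k = m then 1 else 0)
    (hSx : ∀ b k, ∀ P ∈ S b, x k * P ∈ S (b + 1)) {b : ℕ} {c : Fin a → ℂ}
    {F : MultilinearMap ℂ (fun _ : Fin a => A) ℂ} (hF : HWForm x D S (b + 1) c F) :
    HWForm x D S b (fun m => c m - 1) (altC x F) := by
  classical
  intro m k hmk P hP
  have h1 : ∀ i, (altC x F) (Function.update P i (x k * D m (P i))) =
      ∑ σ : Equiv.Perm (Fin a), ((Equiv.Perm.sign σ : ℤ) : ℂ) *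
        F (fun j => x (σ j) * Function.update P i (x k * D m (P i)) j) := fun i => altC_apply _ _ _
  rw [Finset.sum_congr rfl (fun i _ => h1 i), Finset.sum_comm]
  have h2 : ∀ σ : Equiv.Perm (Fin a), ∑ i, ((Equiv.Perm.sign σ : ℤ) : ℂ) *
      F (fun j => x (σ j) * Function.update P i (x k * D m (P i)) j) =
      ((Equiv.Perm.sign σ : ℤ) : ℂ) * ((if k = m then c m else 0) * F (fun j => x (σ j) * P j)) -
      ((Equiv.Perm.sign σ : ℤ) : ℂ) * F (fun j => x (Function.update id m k (σ j)) * P j) := by
    intro σ
    rw [← Finset.mul_sum, ← mul_sub]
    congr 1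
    have h3 := hF m k hmk (fun j => x (σ j) * P j) (fun j => hSx _ _ _ (hP j))
    rw [← h3]
    have h4 : ∀ i, F (Function.update (fun j => x (σ j) * P j) i (x k * D m (x (σ i) * P i))) =
        F (fun j => x (σ j) * Function.update P i (x k * D m (P i)) j) +
        (if σ i = m then F (fun j => x (Function.update id m k (σ j)) * P j) else 0) := by
      intro i
      rw [deriv_mul hDx, MultilinearMap.map_update_add]
      congr 1
      · congr 1
        funext j
        by_cases hj : j = i
        · subst hj; simp
        · rw [Function.update_of_ne hj, Function.update_of_ne hj]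
      · by_cases hi : σ i = m
        · rw [if_pos hi, if_pos hi]
          congr 1
          funext j
          by_cases hj : j = i
          · subst hj
            rw [Function.update_self, hi, Function.update_self]
          · have h5 : σ j ≠ m := by
              rw [← hi]
              exact fun h => hj (σ.injective h)
            rw [Function.update_of_ne hj, Function.update_of_ne h5]
            rfl
        · rw [if_neg hi, if_neg hi]
          exact F.map_update_zero _ _
    rw [Finset.sum_congr rfl (fun i _ => h4 i), Finset.sum_add_distrib]
    have h6 : ∑ i, (if σ i = m then F (fun j => x (Function.update id m k (σ j)) * P j) else 0) =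
        F (fun j => x (Function.update id m k (σ j)) * P j) := by
      rw [Finset.sum_eq_single (σ.symm m)]
      · rw [Equiv.apply_symm_apply, if_pos rfl]
      · intro i _ hi
        rw [if_neg]
        intro h
        apply hi
        rw [← h, Equiv.symm_apply_apply]
      · intro h
        exact absurd (Finset.mem_univ _) h
    rw [h6, add_sub_cancel_right]
  rw [Finset.sum_congr rfl (fun σ _ => h2 σ), Finset.sum_sub_distrib]
  have h7 : ∑ σ : Equiv.Perm (Fin a), ((Equiv.Perm.sign σ : ℤ) : ℂ) *
      ((if k = m then c m else 0) * F (fun j => x (σ j) * P j)) =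
      (if k = m then c m else 0) * (altC x F) P := by
    rw [altC_apply, Finset.mul_sum]
    apply Finset.sum_congr rfl
    intro σ _
    ring
  rw [h7]
  by_cases hk : k = m
  · subst hk
    have h8 : ∀ l : Fin a, Function.update id k k l = l := by
      intro l
      have h9 : Function.update (id : Fin a → Fin a) k k = id := Function.update_eq_self k id
      rw [h9]
      rfl
    simp only [h8, if_true]
    rw [sub_mul, one_mul, altC_apply]
  · rw [if_neg hk, if_neg hk, zero_mul, zero_sub, neg_eq_zero]
    apply sum_sign_left_zero _ hk
    intro σ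
    congr 1
    funext j
    congr 2
    simp only [Equiv.Perm.coe_mul, Function.comp_apply]
    by_cases h8 : σ j = k
    · rw [h8, Equiv.swap_apply_left, Function.update_self, Function.update_of_ne hk]
      rfl
    · by_cases h9 : σ j = m
      · rw [h9, Equiv.swap_apply_right, Function.update_self, Function.update_of_ne hk]
        rfl
      · rw [Equiv.swap_apply_of_ne_of_ne h8 h9]

/-- Permutations fixing the first `m` indices. -/
def fixB (m : ℕ) (σ : Equiv.Perm (Fin a)) : Prop := ∀ i : Fin a, (i : ℕ) < m → σ i = i

lemma fixB_mul_swap {m : ℕ} {j j' : Fin a} (hj : m ≤ j) (hj' : m ≤ j') (σ : Equiv.Perm (Fin a)) :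
    fixB m (σ * Equiv.swap j j') ↔ fixB m σ := by
  have h : ∀ i : Fin a, (i : ℕ) < m → Equiv.swap j j' i = i := by
    intro i hi
    apply Equiv.swap_apply_of_ne_of_ne
    · rintro rfl; omega
    · rintro rfl; omega
  constructor
  · intro h1 i hi
    have := h1 i hi
    rwa [Equiv.Perm.coe_mul, Function.comp_apply, h i hi] at this
  · intro h1 i hi
    rw [Equiv.Perm.coe_mul, Function.comp_apply, h i hi]
    exact h1 i hi

lemma fixB_ge {m : ℕ} {σ : Equiv.Perm (Fin a)} (h : fixB m σ) {i : Fin a} (hi : m ≤ i) :
    m ≤ (σ i : ℕ) := by
  by_contra hlt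
  rw [not_le] at hlt
  have h1 := h (σ i) hlt
  have h2 := σ.injective h1
  rw [h2] at hlt
  omega

open Classical in
/-- Partial contraction, leaving the first `m` slots alone. -/
noncomputable def part (x : Fin a → A) (F : MultilinearMap ℂ (fun _ : Fin a => A) ℂ) (m : ℕ)
    (P : Fin a → A) : ℂ :=
  ∑ σ : Equiv.Perm (Fin a), ((Equiv.Perm.sign σ : ℤ) : ℂ) *
    (if fixB m σ then F (fun i => if (i : ℕ) < m then P i else x (σ i) * P i) else 0)

/-- **Capelli step.** A highest weight form which is symmetric or alternating and is killed by the
contraction with the determinant is zero. -/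
theorem capelli (hDx : ∀ m k, D m (x k) = if k = m then 1 else 0)
    (hSx : ∀ b k, ∀ P ∈ S b, x k * P ∈ S (b + 1))
    (hSD : ∀ b m, ∀ P ∈ S (b + 1), D m P ∈ S b) {b : ℕ} {c : Fin a → ℂ}
    {F : MultilinearMap ℂ (fun _ : Fin a => A) ℂ} (hF : HWForm x D S (b + 1) c F) {κ : ℕ}
    (hs : IsSgn κ F) (hc : ∀ m : Fin a, c m + ((a - 1 - (m : ℕ) : ℕ) : ℂ) ≠ 0)
    (h0 : ∀ P : Fin a → A, (∀ i, P i ∈ S b) → (altC x F) P = 0) :
    ∀ P : Fin a → A, (∀ i, P i ∈ S (b + 1)) → F P = 0 := by
  classical
  have main : ∀ m : ℕ, m ≤ a → ∀ P : Fin a → A, (∀ i : Fin a, (i : ℕ) < m → P i ∈ S (b + 1)) →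
      (∀ i : Fin a, m ≤ (i : ℕ) → P i ∈ S b) → part x F m P = 0 := by
    intro m
    induction m with
    | zero =>
      intro _ P _ hP
      rw [← h0 P (fun i => hP i (Nat.zero_le _)), part, altC_apply]
      apply Finset.sum_congr rfl
      intro σ _
      have h1 : fixB 0 σ := fun i hi => absurd hi (Nat.not_lt_zero _)
      rw [if_pos h1]
      simp only [Nat.not_lt_zero, if_false]
    | succ m ih =>
      intro hm P hP1 hP2
      have hma : m < a := hm
      have ihm := ih (by omega)
      let m' : Fin a := ⟨m, hma⟩
      have hm'm : (m' : ℕ) = m := rfl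
      let Q : Equiv.Perm (Fin a) → Fin a → A := fun σ i =>
        if (i : ℕ) < m + 1 then P i else x (σ i) * P i
      have hQle : ∀ σ (i : Fin a), (i : ℕ) ≤ m → Q σ i = P i := by
        intro σ i hi
        simp only [Q]
        rw [if_pos (by omega)]
      have hQgt : ∀ σ (i : Fin a), m < (i : ℕ) → Q σ i = x (σ i) * P i := by
        intro σ i hi
        simp only [Q]
        rw [if_neg (by omega)]
      have hQS : ∀ σ i, Q σ i ∈ S (b + 1) := by
        intro σ i
        by_cases hi : (i : ℕ) < m + 1
        · rw [hQle σ i (by omega)]
          exact hP1 i hi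
        · rw [hQgt σ i (by omega)]
          exact hSx _ _ _ (hP2 i (by omega))
      have hPm : P m' ∈ S (b + 1) := hP1 m' (by rw [hm'm]; omega)
      -- the induction hypothesis at the derivative of the new entry
      have hzero : part x F m (Function.update P m' (D m' (P m'))) = 0 := by
        apply ihm
        · intro i hi
          rw [Function.update_of_ne (by rintro rfl; omega)]
          exact hP1 i (by omega)
        · intro i hi
          by_cases him : i = m'
          · subst him
            rw [Function.update_self]
            exact hSD _ _ _ hPm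
          · rw [Function.update_of_ne him]
            have h1 : (i : ℕ) ≠ m := fun h => him (Fin.ext h)
            exact hP2 i (by omega)
      -- the terms
      let B : Fin a → Equiv.Perm (Fin a) → ℂ := fun i σ =>
        if fixB m σ then F (Function.update (Q σ) i (x (σ m') * D m' (P i))) else 0
      let C : Fin a → Equiv.Perm (Fin a) → ℂ := fun i σ =>
        if fixB m σ then F (Function.update (Q σ) i (x (σ i) * (x (σ m') * D m' (P i)))) else 0
      let E : Fin a → Equiv.Perm (Fin a) → ℂ := fun i σ =>
        if fixB m σ then (if σ i = m' then F (Function.update (Q σ) i (x (σ m') * P i)) else 0)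
        else 0
      let R : Equiv.Perm (Fin a) → ℂ := fun σ => if fixB (m + 1) σ then F (Q σ) else 0
      have hfix : ∀ σ : Equiv.Perm (Fin a), fixB (m + 1) σ ↔ (fixB m σ ∧ σ m' = m') := by
        intro σ
        constructor
        · intro h
          exact ⟨fun i hi => h i (by omega), h m' (by rw [hm'm]; omega)⟩
        · rintro ⟨h1, h2⟩ i hi
          by_cases him : i = m'
          · rw [him, h2]
          · have h3 : (i : ℕ) ≠ m := fun h => him (Fin.ext h)
            exact h1 i (by omega)
      have hpart : ∑ σ : Equiv.Perm (Fin a), ((Equiv.Perm.sign σ : ℤ) : ℂ) * R σ =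
          part x F (m + 1) P := rfl
      -- the key identity for one permutation
      have hkey : ∀ σ : Equiv.Perm (Fin a),
          (if fixB m σ then F (fun i => if (i : ℕ) < m then Function.update P m' (D m' (P m')) i
            else x (σ i) * Function.update P m' (D m' (P m')) i) else 0) =
          c m' * R σ - ∑ i ∈ univ.filter (fun i : Fin a => (i : ℕ) < m), B i σ
            - ∑ i ∈ univ.filter (fun i : Fin a => m < (i : ℕ)), (C i σ + E i σ) := by
        intro σ
        by_cases hσ : fixB m σ
        · have hk : m' ≤ σ m' := by
            rw [Fin.le_def]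
            exact fixB_ge hσ le_rfl
          have h1 := hF m' (σ m') hk (Q σ) (hQS σ)
          have h2 : (if σ m' = m' then c m' else 0) * F (Q σ) = c m' * R σ := by
            simp only [R, hfix, hσ, true_and]
            split_ifs <;> simp
          rw [h2] at h1
          rw [← h1, if_pos hσ]
          have h3 : ∀ g : Fin a → ℂ, ∑ i, g i =
              g m' + ∑ i ∈ univ.filter (fun i : Fin a => (i : ℕ) < m), g i +
              ∑ i ∈ univ.filter (fun i : Fin a => m < (i : ℕ)), g i := by
            intro g
            rw [Finset.sum_filter, Finset.sum_filter]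
            have h4 : g m' = ∑ i, if i = m' then g i else 0 := by
              rw [Finset.sum_ite_eq' univ m' g, if_pos (Finset.mem_univ _)]
            rw [h4, ← Finset.sum_add_distrib, ← Finset.sum_add_distrib]
            apply Finset.sum_congr rfl
            intro i _
            rcases lt_trichotomy (i : ℕ) m with h | h | h
            · rw [if_neg (by rintro rfl; omega), if_pos h, if_neg (by omega)]
              ring
            · rw [if_pos (Fin.ext h), if_neg (by omega), if_neg (by omega)]
              ring
            · rw [if_neg (by rintro rfl; omega), if_neg (by omega), if_pos h]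
              ring
          rw [h3 (fun i => F (Function.update (Q σ) i (x (σ m') * D m' (Q σ i))))]
          have h5 : ∑ i ∈ univ.filter (fun i : Fin a => (i : ℕ) < m),
              F (Function.update (Q σ) i (x (σ m') * D m' (Q σ i))) =
              ∑ i ∈ univ.filter (fun i : Fin a => (i : ℕ) < m), B i σ := by
            apply Finset.sum_congr rfl
            intro i hi
            rw [Finset.mem_filter] at hi
            simp only [B, if_pos hσ]
            rw [hQle σ i (by omega)]
          have h6 : ∑ i ∈ univ.filter (fun i : Fin a => m < (i : ℕ)),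
              F (Function.update (Q σ) i (x (σ m') * D m' (Q σ i))) =
              ∑ i ∈ univ.filter (fun i : Fin a => m < (i : ℕ)), (C i σ + E i σ) := by
            apply Finset.sum_congr rfl
            intro i hi
            rw [Finset.mem_filter] at hi
            simp only [C, E, if_pos hσ]
            rw [hQgt σ i hi.2, deriv_mul hDx, MultilinearMap.map_update_add]
            congr 1
            split_ifs
            · rfl
            · exact F.map_update_zero _ _
          rw [h5, h6]
          have h7 : F (fun i => if (i : ℕ) < m then Function.update P m' (D m' (P m')) i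
            else x (σ i) * Function.update P m' (D m' (P m')) i) =
              F (Function.update (Q σ) m' (x (σ m') * D m' (Q σ m'))) := by
            congr 1
            funext i
            by_cases him : i = m'
            · subst him
              rw [if_neg (by omega), Function.update_self, Function.update_self,
                hQle σ m' le_rfl]
            · rw [Function.update_of_ne him, Function.update_of_ne him]
              have h8 : (i : ℕ) ≠ m := fun h => him (Fin.ext h)
              by_cases hi : (i : ℕ) < m
              · rw [if_pos hi, hQle σ i (by omega)]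
              · rw [if_neg hi, hQgt σ i (by omega)]
          rw [h7]
          ring
        · have hσ' : ¬ fixB (m + 1) σ := fun h => hσ ((hfix σ).1 h).1
          simp only [R, B, C, E, if_neg hσ, if_neg hσ']
          simp
      -- sum over all permutations
      have hBz : ∀ i : Fin a, (i : ℕ) < m →
          ∑ σ : Equiv.Perm (Fin a), ((Equiv.Perm.sign σ : ℤ) : ℂ) * B i σ = 0 := by
        intro i hi
        have him : i ≠ m' := by rintro rfl; omega
        have h1 := ihm (Function.update (Function.update P i (P m')) m' (D m' (P i))) (by
          intro j hj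
          rw [Function.update_of_ne (by rintro rfl; omega)]
          by_cases hji : j = i
          · subst hji
            rw [Function.update_self]
            exact hPm
          · rw [Function.update_of_ne hji]
            exact hP1 j (by omega)) (by
          intro j hj
          by_cases hjm : j = m'
          · subst hjm
            rw [Function.update_self]
            exact hSD _ _ _ (hP1 i (by omega))
          · rw [Function.update_of_ne hjm, Function.update_of_ne (by rintro rfl; omega)]
            have h3 : (j : ℕ) ≠ m := fun h => hjm (Fin.ext h)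
            exact hP2 j (by omega))
        rw [part] at h1
        have h2 : ∀ σ : Equiv.Perm (Fin a), B i σ =
            ((Equiv.Perm.sign (Equiv.swap i m') : ℤ) : ℂ) ^ κ *
            (if fixB m σ then F (fun j => if (j : ℕ) < m then
              Function.update (Function.update P i (P m')) m' (D m' (P i)) j
              else x (σ j) * Function.update (Function.update P i (P m')) m' (D m' (P i)) j)
              else 0) := by
          intro σ
          simp only [B]
          split_ifs
          · rw [← hs]
            congr 1
            funext j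
            by_cases hji : j = i
            · subst hji
              rw [Function.update_self, Equiv.swap_apply_left, if_neg (by omega),
                Function.update_self]
            · rw [Function.update_of_ne hji]
              by_cases hjm : j = m'
              · subst hjm
                rw [Equiv.swap_apply_right, if_pos hi, Function.update_of_ne him,
                  Function.update_self, hQle σ m' le_rfl]
              · rw [Equiv.swap_apply_of_ne_of_ne hji hjm, Function.update_of_ne hjm,
                  Function.update_of_ne hji]
                have h3 : (j : ℕ) ≠ m := fun h => hjm (Fin.ext h)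
                by_cases hj : (j : ℕ) < m
                · rw [if_pos hj, hQle σ j (by omega)]
                · rw [if_neg hj, hQgt σ j (by omega)]
          · rw [mul_zero]
        have h4 : ∑ σ : Equiv.Perm (Fin a), ((Equiv.Perm.sign σ : ℤ) : ℂ) * B i σ =
            ((Equiv.Perm.sign (Equiv.swap i m') : ℤ) : ℂ) ^ κ *
            part x F m (Function.update (Function.update P i (P m')) m' (D m' (P i))) := by
          rw [part, Finset.mul_sum]
          apply Finset.sum_congr rfl
          intro σ _
          rw [h2]
          ring
        rw [h4, part, h1, mul_zero]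
      have hCz : ∀ i : Fin a, m < (i : ℕ) →
          ∑ σ : Equiv.Perm (Fin a), ((Equiv.Perm.sign σ : ℤ) : ℂ) * C i σ = 0 := by
        intro i hi
        have him : m' ≠ i := by rintro rfl; omega
        apply sum_sign_right_zero _ him
        intro σ
        simp only [C]
        rw [fixB_mul_swap (m := m) (j := m') (j' := i) le_rfl hi.le]
        congr 2
        funext j
        by_cases hji : j = i
        · subst hji
          rw [Function.update_self, Function.update_self]
          simp only [Equiv.Perm.coe_mul, Function.comp_apply, Equiv.swap_apply_left,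
            Equiv.swap_apply_right]
          ring
        · rw [Function.update_of_ne hji, Function.update_of_ne hji]
          by_cases hjm : (j : ℕ) ≤ m
          · rw [hQle _ j hjm, hQle _ j hjm]
          · rw [hQgt _ j (by omega), hQgt _ j (by omega), Equiv.Perm.coe_mul, Function.comp_apply,
              Equiv.swap_apply_of_ne_of_ne _ hji]
            rintro rfl
            omega
      have hEz : ∀ i : Fin a, m < (i : ℕ) →
          ∑ σ : Equiv.Perm (Fin a), ((Equiv.Perm.sign σ : ℤ) : ℂ) * E i σ =
            - part x F (m + 1) P := by
        intro i hi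
        have him : m' ≠ i := by rintro rfl; omega
        rw [sum_sign_right _ him, ← hpart]
        congr 1
        apply Finset.sum_congr rfl
        intro σ _
        congr 1
        simp only [E, R]
        rw [fixB_mul_swap (m := m) (j := m') (j' := i) le_rfl hi.le]
        by_cases hσ : fixB m σ
        · rw [if_pos hσ]
          simp only [Equiv.Perm.coe_mul, Function.comp_apply, Equiv.swap_apply_right,
            Equiv.swap_apply_left]
          by_cases hσm : σ m' = m'
          · rw [if_pos hσm, if_pos ((hfix σ).2 ⟨hσ, hσm⟩)]
            congr 1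
            funext j
            by_cases hji : j = i
            · subst hji
              rw [Function.update_self, hQgt _ j hi]
            · rw [Function.update_of_ne hji]
              by_cases hjm : (j : ℕ) ≤ m
              · rw [hQle _ j hjm, hQle _ j hjm]
              · rw [hQgt _ j (by omega), hQgt _ j (by omega), Equiv.Perm.coe_mul,
                  Function.comp_apply, Equiv.swap_apply_of_ne_of_ne _ hji]
                rintro rfl
                omega
          · rw [if_neg hσm, if_neg (fun h => hσm ((hfix σ).1 h).2)]
        · rw [if_neg hσ, if_neg (fun h => hσ ((hfix σ).1 h).1)]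
      rw [part] at hzero
      simp only [hkey] at hzero
      have hexp : ∀ σ : Equiv.Perm (Fin a), ((Equiv.Perm.sign σ : ℤ) : ℂ) *
          (c m' * R σ - ∑ i ∈ univ.filter (fun i : Fin a => (i : ℕ) < m), B i σ
            - ∑ i ∈ univ.filter (fun i : Fin a => m < (i : ℕ)), (C i σ + E i σ)) =
          c m' * (((Equiv.Perm.sign σ : ℤ) : ℂ) * R σ) -
          ∑ i ∈ univ.filter (fun i : Fin a => (i : ℕ) < m),
            ((Equiv.Perm.sign σ : ℤ) : ℂ) * B i σ -
          ∑ i ∈ univ.filter (fun i : Fin a => m < (i : ℕ)),
            (((Equiv.Perm.sign σ : ℤ) : ℂ) * C i σ + ((Equiv.Perm.sign σ : ℤ) : ℂ) * E i σ) := by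
        intro σ
        simp only [← mul_add, ← Finset.mul_sum]
        ring
      rw [Finset.sum_congr rfl (fun σ _ => hexp σ), Finset.sum_sub_distrib,
        Finset.sum_sub_distrib, ← Finset.mul_sum, Finset.sum_comm,
        Finset.sum_comm (t := univ.filter (fun i : Fin a => m < (i : ℕ)))] at hzero
      have hB' : ∑ i ∈ univ.filter (fun i : Fin a => (i : ℕ) < m),
          ∑ σ : Equiv.Perm (Fin a), ((Equiv.Perm.sign σ : ℤ) : ℂ) * B i σ = 0 := by
        apply Finset.sum_eq_zero
        intro i hi
        rw [Finset.mem_filter] at hi
        exact hBz i hi.2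
      have hCE : ∑ i ∈ univ.filter (fun i : Fin a => m < (i : ℕ)),
          ∑ σ : Equiv.Perm (Fin a), (((Equiv.Perm.sign σ : ℤ) : ℂ) * C i σ +
            ((Equiv.Perm.sign σ : ℤ) : ℂ) * E i σ) =
          - (((a - 1 - m : ℕ) : ℂ) * part x F (m + 1) P) := by
        have h1 : ∀ i ∈ univ.filter (fun i : Fin a => m < (i : ℕ)),
            ∑ σ : Equiv.Perm (Fin a), (((Equiv.Perm.sign σ : ℤ) : ℂ) * C i σ +
            ((Equiv.Perm.sign σ : ℤ) : ℂ) * E i σ) = - part x F (m + 1) P := by
          intro i hi
          rw [Finset.mem_filter] at hi
          rw [Finset.sum_add_distrib, hCz i hi.2, hEz i hi.2, zero_add]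
        rw [Finset.sum_congr rfl h1, Finset.sum_const]
        have h2 : (univ.filter (fun i : Fin a => m < (i : ℕ))).card = a - 1 - m := by
          have h3 : univ.filter (fun i : Fin a => m < (i : ℕ)) = Finset.Ioi m' := by
            ext i
            simp only [Finset.mem_filter, Finset.mem_univ, true_and, Finset.mem_Ioi, Fin.lt_def,
              hm'm]
          rw [h3, Fin.card_Ioi]
        rw [h2, nsmul_eq_mul]
        ring
      rw [hB', hCE, hpart] at hzero
      have hfin : (c m' + ((a - 1 - (m' : ℕ) : ℕ) : ℂ)) * part x F (m + 1) P = 0 := by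
        rw [hm'm, ← hzero]
        ring
      exact (mul_eq_zero.1 hfin).resolve_left (hc m')
  intro P hP
  have h1 := main a le_rfl P (fun i _ => hP i) (fun i hi => absurd i.2 (by omega))
  rw [part, Finset.sum_eq_single 1] at h1
  · have h2 : fixB a (1 : Equiv.Perm (Fin a)) := fun i _ => rfl
    rw [if_pos h2] at h1
    simpa using h1
  · intro σ _ hσ
    rw [if_neg, mul_zero]
    intro h
    apply hσ
    ext i
    rw [h i i.2]
    rfl
  · intro h
    exact absurd (Finset.mem_univ _) h

end

end Vale.Agent.P181.H280
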