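import Vale.Agent.P181.Bdl.B2

set_option autoImplicit false

open scoped TensorProduct

namespace Vale.Agent.P181.H280

open Vale.Agent.P181 Finset

section Polar

variable {M N : Type*} [AddCommGroup M] [Module ℂ M] [AddCommGroup N] [Module ℂ N]

lemma sum_neg_one_pow {κ : Type*} [Fintype κ] [DecidableEq κ] (U : Finset κ) :
    ∑ T : Finset κ, (if U ⊆ T then (-1 : ℂ) ^ (Tᶜ).card else 0) =
      if U = Finset.univ then 1 else 0 := by
  rw [← Finset.sum_filter]
  have h1 : ∑ T ∈ Finset.univ.filter (fun T : Finset κ => U ⊆ T), (-1 : ℂ) ^ (Tᶜ).card =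
      ∑ T' ∈ (Uᶜ).powerset, (-1 : ℂ) ^ T'.card := by
    apply Finset.sum_nbij' (fun T => Tᶜ) (fun T => Tᶜ)
    · intro T hT
      rw [Finset.mem_filter] at hT
      rw [Finset.mem_powerset]
      exact Finset.compl_subset_compl.2 hT.2
    · intro T hT
      rw [Finset.mem_powerset] at hT
      rw [Finset.mem_filter]
      refine ⟨Finset.mem_univ _, ?_⟩
      rw [← Finset.compl_subset_compl, compl_compl]
      exact hT
    · intro T _; exact compl_compl T
    · intro T _; exact compl_compl T
    · intro T _; rfl
  rw [h1]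
  have h2 := Finset.sum_powerset_neg_one_pow_card (x := Uᶜ)
  have h3 : ∑ T' ∈ (Uᶜ).powerset, (-1 : ℂ) ^ T'.card =
      ((∑ T' ∈ (Uᶜ).powerset, (-1 : ℤ) ^ T'.card : ℤ) : ℂ) := by
    push_cast; rfl
  rw [h3, h2]
  simp only [Finset.compl_eq_empty_iff]
  split_ifs <;> simp

/-- Polarization: if a multilinear map vanishes on the diagonal of a subspace, its
symmetrization vanishes on that subspace. -/
lemma polar {κ : Type*} [Fintype κ] [DecidableEq κ] (f : MultilinearMap ℂ (fun _ : κ => M) N)
    (S : Submodule ℂ M) (h : ∀ x ∈ S, f (fun _ => x) = 0) (y : κ → M) (hy : ∀ p, y p ∈ S) :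
    ∑ π : Equiv.Perm κ, f (fun p => y (π p)) = 0 := by
  have h1 : ∀ T : Finset κ, f (fun _ => ∑ p ∈ T, y p) =
      ∑ e : κ → κ, if Finset.univ.image e ⊆ T then f (fun p => y (e p)) else 0 := by
    intro T
    rw [MultilinearMap.map_sum_finset, ← Finset.sum_filter]
    apply Finset.sum_congr _ (fun _ _ => rfl)
    ext e
    simp only [Fintype.mem_piFinset, Finset.mem_filter, Finset.mem_univ, true_and,
      Finset.image_subset_iff, forall_true_left]
  have h2 : ∑ T : Finset κ, ((-1 : ℂ) ^ (Tᶜ).card) • f (fun _ => ∑ p ∈ T, y p) = 0 :=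
    Finset.sum_eq_zero (fun T _ => by rw [h _ (Submodule.sum_mem _ (fun p _ => hy p)), smul_zero])
  simp only [h1, Finset.smul_sum] at h2
  rw [Finset.sum_comm] at h2
  have h3 : ∀ e : κ → κ, ∑ T : Finset κ, ((-1 : ℂ) ^ (Tᶜ).card) •
      (if Finset.univ.image e ⊆ T then f (fun p => y (e p)) else 0) =
      if Function.Bijective e then f (fun p => y (e p)) else 0 := by
    intro e
    have h4 : ∀ T : Finset κ, ((-1 : ℂ) ^ (Tᶜ).card) •
        (if Finset.univ.image e ⊆ T then f (fun p => y (e p)) else 0) =
        (if Finset.univ.image e ⊆ T then (-1 : ℂ) ^ (Tᶜ).card else 0) • f (fun p => y (e p)) := by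
      intro T
      split_ifs
      · rfl
      · rw [smul_zero, zero_smul]
    rw [Finset.sum_congr rfl (fun T _ => h4 T), ← Finset.sum_smul, sum_neg_one_pow]
    have h5 : (Finset.univ.image e = Finset.univ) ↔ Function.Bijective e := by
      rw [← Finite.surjective_iff_bijective]
      simp only [Finset.eq_univ_iff_forall, Finset.mem_image, Finset.mem_univ, true_and,
        Function.Surjective]
    by_cases hb : Function.Bijective e
    · rw [if_pos hb, if_pos (h5.2 hb), one_smul]
    · rw [if_neg hb, if_neg (fun hh => hb (h5.1 hh)), zero_smul]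
  rw [Finset.sum_congr rfl (fun e _ => h3 e), ← Finset.sum_filter] at h2
  rw [← h2]
  apply Finset.sum_bij (fun (e : Equiv.Perm κ) _ => (⇑e : κ → κ))
  · intro e _
    rw [Finset.mem_filter]
    exact ⟨Finset.mem_univ _, e.bijective⟩
  · intro e _ e' _ h
    exact Equiv.coe_fn_injective h
  · intro p hp
    rw [Finset.mem_filter] at hp
    exact ⟨Equiv.ofBijective p hp.2, Finset.mem_univ _, rfl⟩
  · intro e _; rfl

/-- The first-order term of a multilinear map along a line on which it is constant. -/
lemma first_order' {κ : Type*} [Fintype κ] [DecidableEq κ]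
    (F : MultilinearMap ℂ (fun _ : κ => M) ℂ) (x y : κ → M) (c : ℂ)
    (h : ∀ t : ℂ, F (fun i => x i + t • y i) = c) :
    ∑ i, F (Function.update x i (y i)) = 0 := by
  let p : Polynomial ℂ := ∑ s : Finset κ, Polynomial.C (F (s.piecewise x y)) * Polynomial.X ^ (sᶜ).card
  have hp : p = Polynomial.C c := by
    apply Polynomial.funext
    intro t
    rw [Polynomial.eval_C, ← h t]
    have h1 : (fun i => x i + t • y i) = x + t • y := rfl
    rw [h1, MultilinearMap.map_add_univ]
    simp only [p, Polynomial.eval_finsetSum, Polynomial.eval_mul, Polynomial.eval_C,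
      Polynomial.eval_pow, Polynomial.eval_X]
    apply Finset.sum_congr rfl
    intro s _
    have h2 : s.piecewise x (t • y) = sᶜ.piecewise (fun i => t • (s.piecewise x y) i)
        (s.piecewise x y) := by
      funext i
      by_cases hi : i ∈ s
      · simp [Finset.piecewise, hi]
      · simp [Finset.piecewise, hi]
    rw [h2, MultilinearMap.map_piecewise_smul]
    simp [mul_comm]
  have h1 := congrArg (fun q => q.coeff 1) hp
  simp only [p, Polynomial.finsetSum_coeff, Polynomial.coeff_C_mul, Polynomial.coeff_X_pow,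
    Polynomial.coeff_C, mul_ite, mul_one, mul_zero, one_ne_zero, if_false] at h1
  rw [← Finset.sum_filter] at h1
  rw [← h1]
  apply Finset.sum_bij (fun i _ => ({i} : Finset κ)ᶜ)
  · intro i _
    simp
  · intro i _ j _ hij
    simpa using hij
  · intro s hs
    rw [Finset.mem_filter] at hs
    obtain ⟨i, hi⟩ := Finset.card_eq_one.1 hs.2.symm
    exact ⟨i, Finset.mem_univ i, by rw [← hi, compl_compl]⟩
  · intro i _
    congr 1
    funext j
    by_cases hj : j = i
    · subst hj; simp [Finset.piecewise]
    · simp [Finset.piecewise, hj]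

end Polar

variable {A : Type*} [CommRing A] [Algebra ℂ A]

/-- Contraction of a form with the alternating product of `w_1, …, w_a`. -/
noncomputable def altC {a : ℕ} (w : Fin a → A) (F : MultilinearMap ℂ (fun _ : Fin a => A) ℂ) :
    MultilinearMap ℂ (fun _ : Fin a => A) ℂ :=
  ∑ σ : Equiv.Perm (Fin a), ((Equiv.Perm.sign σ : ℤ) : ℂ) • mulArg F (fun i => w (σ i))

lemma altC_apply {a : ℕ} (w : Fin a → A) (F : MultilinearMap ℂ (fun _ : Fin a => A) ℂ)
    (P : Fin a → A) : altC w F P =
      ∑ σ : Equiv.Perm (Fin a), ((Equiv.Perm.sign σ : ℤ) : ℂ) * F (fun i => w (σ i) * P i) := by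
  simp only [altC, _root_.sum_apply, smul_apply, mulArg_apply, smul_eq_mul]

/-- Symmetric (`k` even) or alternating (`k` odd) forms. -/
def IsSgn {a : ℕ} (k : ℕ) (F : MultilinearMap ℂ (fun _ : Fin a => A) ℂ) : Prop :=
  ∀ (σ : Equiv.Perm (Fin a)) (P : Fin a → A),
    F (fun i => P (σ i)) = ((Equiv.Perm.sign σ : ℤ) : ℂ) ^ k * F P

lemma sign_sq {a : ℕ} (σ : Equiv.Perm (Fin a)) :
    ((Equiv.Perm.sign σ : ℤ) : ℂ) * ((Equiv.Perm.sign σ : ℤ) : ℂ) = 1 := by
  rcases Int.units_eq_one_or (Equiv.Perm.sign σ) with h | h <;> rw [h] <;> simp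

lemma IsSgn.altC {a k : ℕ} {F : MultilinearMap ℂ (fun _ : Fin a => A) ℂ} (hF : IsSgn k F)
    (w : Fin a → A) : IsSgn (k + 1) (altC w F) := by
  intro τ P
  rw [altC_apply, altC_apply, ← Equiv.sum_comp (Equiv.mulRight τ), Finset.mul_sum]
  apply Finset.sum_congr rfl
  intro σ _
  have h1 := hF τ (fun j => w (σ j) * P j)
  simp only [Equiv.coe_mulRight, Equiv.Perm.coe_mul, Function.comp_apply, map_mul, Units.val_mul,
    Int.cast_mul]
  rw [h1, pow_succ]
  ring

lemma IsSgn.isSymm {a : ℕ} {F : MultilinearMap ℂ (fun _ : Fin a => A) ℂ} (hF : IsSgn 2 F) :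
    IsSymm F := by
  intro σ P
  rw [hF σ P, pow_two, sign_sq, one_mul]

lemma IsSymm.isSgn {a : ℕ} {F : MultilinearMap ℂ (fun _ : Fin a => A) ℂ} (hF : IsSymm F) :
    IsSgn 0 F := by
  intro σ P
  rw [hF σ P, pow_zero, one_mul]

lemma altC_mulArg {a : ℕ} (w : Fin a → A) (F : MultilinearMap ℂ (fun _ : Fin a => A) ℂ) (Y : A) :
    altC w (mulArg F (fun _ => Y)) = mulArg (altC w F) (fun _ => Y) := by
  ext P
  rw [mulArg_apply, altC_apply, altC_apply]
  apply Finset.sum_congr rfl
  intro σ _
  rw [mulArg_apply]
  congr 2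
  funext i
  ring

lemma altC_mul {a : ℕ} (w : Fin a → A) (F : MultilinearMap ℂ (fun _ : Fin a => A) ℂ) (Y : A) :
    altC (fun i => Y * w i) F = mulArg (altC w F) (fun _ => Y) := by
  ext P
  rw [mulArg_apply, altC_apply, altC_apply]
  apply Finset.sum_congr rfl
  intro σ _
  congr 2
  funext i
  ring

lemma altC_iter_mulArg {a : ℕ} (w : Fin a → A) (Y : A) (m : ℕ) :
    ∀ F : MultilinearMap ℂ (fun _ : Fin a => A) ℂ,
      (altC w)^[m] (mulArg F (fun _ => Y)) = mulArg ((altC w)^[m] F) (fun _ => Y) := by
  induction m with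
  | zero => intro F; rfl
  | succ m ih =>
    intro F
    rw [Function.iterate_succ_apply, Function.iterate_succ_apply, altC_mulArg, ih]

/-- The multilinear map `y ↦ F(∏_k y_{1k}, …, ∏_k y_{ak})`. -/
noncomputable def rowProd {a : ℕ} (q : ℕ) (F : MultilinearMap ℂ (fun _ : Fin a => A) ℂ) :
    MultilinearMap ℂ (fun _ : Fin a × Fin q => A) ℂ where
  toFun y := F (fun i => ∏ k, y (i, k))
  map_update_add' := by
    intro _ y p u v
    have key : ∀ z : A, (fun i => ∏ k, Function.update y p z (i, k)) =
        Function.update (fun i => ∏ k, y (i, k)) p.1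
          (MultilinearMap.mkPiAlgebra ℂ (Fin q) A
            (Function.update (fun k => y (p.1, k)) p.2 z)) := by
      intro z
      funext i
      by_cases hi : i = p.1
      · subst hi
        rw [Function.update_self, MultilinearMap.mkPiAlgebra_apply]
        apply Finset.prod_congr rfl
        intro k _
        by_cases hk : k = p.2
        · subst hk
          simp
        · rw [Function.update_of_ne hk, Function.update_of_ne]
          intro h
          exact hk (congrArg Prod.snd h)
      · rw [Function.update_of_ne hi]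
        apply Finset.prod_congr rfl
        intro k _
        rw [Function.update_of_ne]
        intro h
        exact hi (congrArg Prod.fst h)
    rw [key, key, key, MultilinearMap.map_update_add, MultilinearMap.map_update_add]
  map_update_smul' := by
    intro _ y p c u
    have key : ∀ z : A, (fun i => ∏ k, Function.update y p z (i, k)) =
        Function.update (fun i => ∏ k, y (i, k)) p.1
          (MultilinearMap.mkPiAlgebra ℂ (Fin q) A
            (Function.update (fun k => y (p.1, k)) p.2 z)) := by
      intro z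
      funext i
      by_cases hi : i = p.1
      · subst hi
        rw [Function.update_self, MultilinearMap.mkPiAlgebra_apply]
        apply Finset.prod_congr rfl
        intro k _
        by_cases hk : k = p.2
        · subst hk
          simp
        · rw [Function.update_of_ne hk, Function.update_of_ne]
          intro h
          exact hk (congrArg Prod.snd h)
      · rw [Function.update_of_ne hi]
        apply Finset.prod_congr rfl
        intro k _
        rw [Function.update_of_ne]
        intro h
        exact hi (congrArg Prod.fst h)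
    rw [key, key, MultilinearMap.map_update_smul, MultilinearMap.map_update_smul]

lemma rowProd_apply {a : ℕ} (q : ℕ) (F : MultilinearMap ℂ (fun _ : Fin a => A) ℂ)
    (y : Fin a × Fin q → A) : rowProd q F y = F (fun i => ∏ k, y (i, k)) := rfl

/-- Bookkeeping of the marked entries of a permuted array. -/
lemma row_marked {B : Type*} [CommMonoid B] {a q : ℕ} (π : Equiv.Perm (Fin a × Fin (q + 1)))
    (z : Fin a → B) (i : Fin a) :
    ∏ k, (if (π (i, k)).2 = 0 then z (π (i, k)).1 else 1) =
      ∏ j, (if (π.symm (j, 0)).1 = i then z j else 1) := by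
  have h1 : ∏ p : Fin a × Fin (q + 1),
      (if p.1 = i then (if (π p).2 = 0 then z (π p).1 else 1) else 1) =
      ∏ k, (if (π (i, k)).2 = 0 then z (π (i, k)).1 else 1) := by
    rw [Fintype.prod_prod_type, Finset.prod_eq_single i]
    · apply Finset.prod_congr rfl
      intro k _
      rw [if_pos rfl]
    · intro j _ hj
      apply Finset.prod_eq_one
      intro k _
      rw [if_neg hj]
    · intro h
      exact absurd (Finset.mem_univ i) h
  have h2 : ∏ p : Fin a × Fin (q + 1),
      (if p.2 = 0 then (if (π.symm p).1 = i then z p.1 else 1) else 1) =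
      ∏ j, (if (π.symm (j, 0)).1 = i then z j else 1) := by
    rw [Fintype.prod_prod_type]
    apply Finset.prod_congr rfl
    intro j _
    rw [Finset.prod_eq_single 0]
    · rw [if_pos rfl]
    · intro k _ hk
      rw [if_neg hk]
    · intro h
      exact absurd (Finset.mem_univ _) h
  rw [← h1, ← h2, ← Equiv.prod_comp π (fun p : Fin a × Fin (q + 1) =>
    (if p.2 = 0 then (if (π.symm p).1 = i then z p.1 else 1) else 1))]
  apply Finset.prod_congr rfl
  intro p _
  simp only [Equiv.symm_apply_apply]
  split_ifs <;> rfl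

lemma prod_single_perm {B : Type*} [CommMonoid B] {a : ℕ} (r : Fin a → Fin a)
    (ρ : Equiv.Perm (Fin a)) (h : ∀ j, r j = ρ j) (z : Fin a → B) (i : Fin a) :
    ∏ j, (if r j = i then z j else 1) = z (ρ.symm i) := by
  rw [Finset.prod_eq_single (ρ.symm i)]
  · rw [h, Equiv.apply_symm_apply, if_pos rfl]
  · intro j _ hj
    rw [h, if_neg]
    intro h'
    apply hj
    rw [← h', Equiv.symm_apply_apply]
  · intro h'
    exact absurd (Finset.mem_univ _) h'

/-- **The alternating placement trick.** -/
theorem ttrick (L : Submodule ℂ A) {a q : ℕ} (ha : 0 < a)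
    (F : MultilinearMap ℂ (fun _ : Fin a => A) ℂ)
    (hs : IsSymm F) (hd : ∀ G ∈ L ^ a, F (fun _ => G ^ (q + 1)) = 0)
    (x : Fin a → A) (hx : ∀ i, x i ∈ L) (v : Fin a → A) (hv : ∀ i, v i ∈ L ^ (a - 1))
    (G : A) (hG : G ∈ L ^ a) : altC x F (fun i => v i * G ^ q) = 0 := by
  classical
  let y : Equiv.Perm (Fin a) → Fin a × Fin (q + 1) → A := fun τ p =>
    if p.2 = 0 then x p.1 * v (τ p.1) else G
  have hy : ∀ τ p, y τ p ∈ L ^ a := by
    intro τ p
    simp only [y]
    split_ifs
    · have h1 : L ^ a = L * L ^ (a - 1) := by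
        rw [← pow_succ']
        congr 1
        omega
      rw [h1]
      exact Submodule.mul_mem_mul (hx _) (hv _)
    · exact hG
  have hpol : ∀ τ, ∑ π : Equiv.Perm (Fin a × Fin (q + 1)),
      F (fun i => ∏ k, y τ (π (i, k))) = 0 := by
    intro τ
    have h1 := polar (rowProd (q + 1) F) (L ^ a) (by
      intro G' hG'
      rw [rowProd_apply, ← hd G' hG']
      congr 1
      funext i
      rw [Finset.prod_const, Finset.card_univ, Fintype.card_fin]) (y τ) (hy τ)
    exact h1
  -- the row products
  have hrow : ∀ τ (π : Equiv.Perm (Fin a × Fin (q + 1))) i, ∏ k, y τ (π (i, k)) =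
      (∏ j, (if (π.symm (j, 0)).1 = i then x j * v (τ j) else 1)) *
        ∏ k, (if (π (i, k)).2 = 0 then 1 else G) := by
    intro τ π i
    rw [← row_marked π (fun j => x j * v (τ j)) i, ← Finset.prod_mul_distrib]
    apply Finset.prod_congr rfl
    intro k _
    simp only [y]
    split_ifs
    · rw [mul_one]
    · rw [one_mul]
  set T := altC x F (fun i => v i * G ^ q) with hT
  have hmain : ∀ π : Equiv.Perm (Fin a × Fin (q + 1)),
      ∑ τ : Equiv.Perm (Fin a), ((Equiv.Perm.sign τ : ℤ) : ℂ) *
        F (fun i => ∏ k, y τ (π (i, k))) =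
      if Function.Injective (fun j => (π.symm (j, 0)).1) then T else 0 := by
    intro π
    by_cases hinj : Function.Injective (fun j => (π.symm (j, 0)).1)
    · rw [if_pos hinj]
      have hbij : Function.Bijective (fun j => (π.symm (j, 0)).1) :=
        Finite.injective_iff_bijective.1 hinj
      let ρ : Equiv.Perm (Fin a) := Equiv.ofBijective _ hbij
      have hρ : ∀ j, (π.symm (j, 0)).1 = ρ j := fun j => rfl
      have hcard : ∀ i, ∏ k, (if (π (i, k)).2 = 0 then 1 else G) = G ^ q := by
        intro i
        have h1 : ∏ k, (if (π (i, k)).2 = 0 then 2 else 1) = 2 := by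
          rw [row_marked π (fun _ => 2) i,
            prod_single_perm (fun j => (π.symm (j, 0)).1) ρ hρ (fun _ => 2)]
        rw [Finset.prod_ite, Finset.prod_const, Finset.prod_const_one, mul_one] at h1
        have h2 : (Finset.univ.filter (fun k => (π (i, k)).2 = 0)).card = 1 := by
          have h3 : 2 ^ (Finset.univ.filter (fun k => (π (i, k)).2 = 0)).card = 2 ^ 1 := by
            rw [h1, pow_one]
          exact Nat.pow_right_injective le_rfl h3
        rw [Finset.prod_ite, Finset.prod_const_one, one_mul, Finset.prod_const]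
        congr 1
        have h4 := Finset.card_filter_add_card_filter_not (s := (Finset.univ : Finset (Fin (q + 1))))
          (fun k => (π (i, k)).2 = 0)
        rw [h2, Finset.card_univ, Fintype.card_fin] at h4
        omega
      have h5 : ∀ τ : Equiv.Perm (Fin a), F (fun i => ∏ k, y τ (π (i, k))) =
          F (fun i => x i * v (τ i) * G ^ q) := by
        intro τ
        rw [← hs ρ.symm (fun i => x i * v (τ i) * G ^ q)]
        congr 1
        funext i
        rw [hrow, hcard, prod_single_perm (fun j => (π.symm (j, 0)).1) ρ hρ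
          (fun j => x j * v (τ j))]
      rw [hT, altC_apply, ← Equiv.sum_comp (Equiv.inv (Equiv.Perm (Fin a)))]
      apply Finset.sum_congr rfl
      intro τ _
      rw [h5]
      simp only [Equiv.inv_apply, Equiv.Perm.sign_inv]
      congr 1
      rw [← hs τ (fun i => x i * v (τ⁻¹ i) * G ^ q)]
      congr 1
      funext i
      have h6 : τ⁻¹ (τ i) = i := τ.symm_apply_apply i
      rw [h6]
      ring
    · rw [if_neg hinj]
      rw [Function.not_injective_iff] at hinj
      obtain ⟨j, j', hjj, hne⟩ := hinj
      have hjj' : (π.symm (j, 0)).1 = (π.symm (j', 0)).1 := hjj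
      set sw := Equiv.swap j j' with hsw
      have h1 : ∀ τ : Equiv.Perm (Fin a), F (fun i => ∏ k, y (τ * sw) (π (i, k))) =
          F (fun i => ∏ k, y τ (π (i, k))) := by
        intro τ
        congr 1
        funext i
        rw [hrow, hrow]
        congr 1
        have h2 : ∀ τ' : Equiv.Perm (Fin a),
            ∏ l, (if (π.symm (l, 0)).1 = i then x l * v (τ' l) else 1) =
            (∏ l, (if (π.symm (l, 0)).1 = i then x l else 1)) *
              ∏ l, (if (π.symm (l, 0)).1 = i then v (τ' l) else 1) := by
          intro τ'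
          rw [← Finset.prod_mul_distrib]
          apply Finset.prod_congr rfl
          intro l _
          split_ifs
          · rfl
          · rw [one_mul]
        rw [h2, h2]
        congr 1
        rw [← Equiv.prod_comp sw (fun l => if (π.symm (l, 0)).1 = i then v (τ l) else 1)]
        apply Finset.prod_congr rfl
        intro l _
        have h3 : (π.symm (sw l, 0)).1 = (π.symm (l, 0)).1 := by
          by_cases hl : l = j
          · rw [hl, hsw, Equiv.swap_apply_left, hjj']
          · by_cases hl' : l = j'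
            · rw [hl', hsw, Equiv.swap_apply_right, hjj']
            · rw [hsw, Equiv.swap_apply_of_ne_of_ne hl hl']
        rw [h3]
        rfl
      have h4 : ∑ τ : Equiv.Perm (Fin a), ((Equiv.Perm.sign τ : ℤ) : ℂ) *
          F (fun i => ∏ k, y τ (π (i, k))) =
          - ∑ τ : Equiv.Perm (Fin a), ((Equiv.Perm.sign τ : ℤ) : ℂ) *
          F (fun i => ∏ k, y τ (π (i, k))) := by
        conv_lhs => rw [← Equiv.sum_comp (Equiv.mulRight sw)]
        rw [← Finset.sum_neg_distrib]
        apply Finset.sum_congr rfl
        intro τ _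
        simp only [Equiv.coe_mulRight]
        rw [h1, map_mul, hsw, Equiv.Perm.sign_swap hne]
        simp
      have h5 := self_eq_neg.1 h4
      exact h5
  have hsum : ∑ π : Equiv.Perm (Fin a × Fin (q + 1)),
      (if Function.Injective (fun j => (π.symm (j, 0)).1) then T else 0) = 0 := by
    rw [← Finset.sum_congr rfl (fun π _ => hmain π), Finset.sum_comm]
    apply Finset.sum_eq_zero
    intro τ _
    rw [← Finset.mul_sum, hpol, mul_zero]
  rw [← Finset.sum_filter, Finset.sum_const, nsmul_eq_mul] at hsum
  refine (mul_eq_zero.1 hsum).resolve_left ?_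
  intro h0
  rw [Nat.cast_eq_zero, Finset.card_eq_zero, Finset.filter_eq_empty_iff] at h0
  exact h0 (Finset.mem_univ 1) (fun j j' h => h)

/-- Removing common linear factors. -/
theorem peel (L : Submodule ℂ A) {a : ℕ} (k : ℕ) :
    ∀ (c : ℕ) (F : MultilinearMap ℂ (fun _ : Fin a => A) ℂ), a + k ≤ c + 1 → k ≤ c →
    (∀ ξ : Fin k → A, (∀ s, ξ s ∈ L) → ∀ P : Fin a → A, (∀ i, P i ∈ L ^ (c - k)) →
      F (fun i => (∏ s, ξ s) * P i) = 0) →
    ∀ P : Fin a → A, (∀ i, P i ∈ L ^ c) → F P = 0 := by
  induction k with
  | zero =>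
    intro c F _ _ h P hP
    have h1 := h (fun s => s.elim0) (fun s => s.elim0) P (by simpa using hP)
    simpa using h1
  | succ k ih =>
    intro c F hc hk h
    refine claimA L F (fun _ => c) (fun _ => 1) ?_ ?_
    · intro j
      rw [Finset.sum_const, smul_eq_mul, mul_one, Fin.card_Iic]
      have := j.2
      omega
    · intro ξ hξ P hP
      have h1 := ih (c - 1) (mulArg F (fun _ => ξ)) (by omega) (by omega) ?_ P hP
      · rw [mulArg_apply] at h1
        simpa only [pow_one] using h1
      · intro ξs hξs P' hP'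
        rw [mulArg_apply]
        have h2 := h (Fin.cons ξ ξs) (by
          intro s
          refine Fin.cases ?_ (fun s => ?_) s
          · exact hξ
          · exact hξs s) P' (by
          intro i
          have h3 : c - (k + 1) = c - 1 - k := by omega
          rw [h3]
          exact hP' i)
        rw [← h2]
        congr 1
        funext i
        rw [Fin.prod_cons]
        ring

/-- **The main algebraic theorem.** A symmetric form on forms of degree `(q+2)a` that vanishes at
all the powers `G^(q+2)` is killed by the contraction with the `(2q+1)`-st power of the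
determinant of any `a` linear forms. -/
theorem tall (L : Submodule ℂ A) {a : ℕ} (ha : 2 ≤ a) (x : Fin a → A) (hx : ∀ i, x i ∈ L)
    (q : ℕ) : ∀ F : MultilinearMap ℂ (fun _ : Fin a => A) ℂ, IsSymm F →
      (∀ G ∈ L ^ a, F (fun _ => G ^ (q + 2)) = 0) →
      ∀ P : Fin a → A, (∀ i, P i ∈ L ^ ((q + 2) * a - (2 * q + 1))) →
        ((altC x)^[2 * q + 1] F) P = 0 := by
  induction q with
  | zero =>
    intro F hs hd P hP
    rw [Nat.mul_zero, Nat.zero_add, Function.iterate_one]
    refine peel L a (2 * a - 1) (altC x F) (by omega) (by omega) ?_ P (by simpa using hP)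
    intro ξ hξ P' hP'
    have h1 := ttrick L (q := 1) (by omega) F hs hd x hx P' (by
      intro i
      have h3 : a - 1 = 2 * a - 1 - a := by omega
      rw [h3]
      exact hP' i) (∏ s, ξ s) (prod_mem_pow L ξ hξ)
    rw [← h1]
    congr 1
    funext i
    rw [pow_one, mul_comm]
  | succ q ih =>
    intro F hs hd P hP
    have hsg : IsSgn 1 (altC x F) := (IsSymm.isSgn hs).altC x
    have hsg2 : ∀ w : Fin a → A, IsSymm (altC w (altC x F)) := fun w => (hsg.altC w).isSymm
    have hE : ∀ w : Fin a → A, (∀ i, w i ∈ L ^ (a - 1)) → ∀ P' : Fin a → A,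
        (∀ i, P' i ∈ L ^ ((q + 2) * a - (2 * q + 1))) →
        ((altC x)^[2 * q + 1] (altC w (altC x F))) P' = 0 := by
      intro w hw
      apply ih _ (hsg2 w)
      intro G hG
      rw [altC_apply]
      apply Finset.sum_eq_zero
      intro σ _
      have h1 := ttrick L (q := q + 2) (by omega) F hs hd x hx (fun i => w (σ i))
        (fun i => hw _) G hG
      rw [h1, mul_zero]
    have h2a : (q + 1 + 2) * a = (q + 2) * a + a := by ring
    have h2b : 2 * (q + 1) + 1 = (2 * q + 1) + 1 + 1 := by ring
    have h2c : 2 * (q + 2) ≤ (q + 2) * a := by nlinarith only [ha]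
    have h2d : a + 2 * (q + 1) ≤ (q + 2) * a := by nlinarith only [ha]
    refine peel L (a - 2) ((q + 1 + 2) * a - (2 * (q + 1) + 1)) _ ?_ ?_ ?_ P hP
    · rw [h2a, h2b]; omega
    · rw [h2a, h2b]; omega
    · intro ξ hξ P' hP'
      have h3 := hE (fun i => (∏ s, ξ s) * x i) (by
        intro i
        have h4 : a - 1 = (a - 2) + 1 := by omega
        rw [h4, pow_succ]
        exact Submodule.mul_mem_mul (prod_mem_pow L ξ hξ) (hx i)) P' (by
        intro i
        have key : ∀ X : ℕ, 2 * (q + 2) ≤ X →
            X - (2 * q + 1) = X + a - (2 * q + 1 + 1 + 1) - (a - 2) := by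
          intro X hX
          omega
        have h5 : (q + 2) * a - (2 * q + 1) = (q + 1 + 2) * a - (2 * (q + 1) + 1) - (a - 2) := by
          rw [h2a, h2b]
          exact key _ h2c
        rw [h5]
        exact hP' i)
      rw [altC_mul, altC_iter_mulArg, mulArg_apply] at h3
      rw [h2b, Function.iterate_succ_apply, Function.iterate_succ_apply]
      exact h3

end Vale.Agent.P181.H280
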