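import Vale.Agent.P181.Bdl.K_Bdl_K_Defs

set_option autoImplicit false

open scoped TensorProduct

namespace Vale.Agent.P181.H280

open Vale.Agent.P181

/-- The Borel subgroup of `GL_n`: upper triangular matrices with nonzero diagonal entries. -/
def IsBorel {n : ℕ} (g : Matrix (Fin n) (Fin n) ℂ) : Prop :=
  (∀ i j, j < i → g i j = 0) ∧ ∀ i, g i i ≠ 0

/-- The space of highest weight vectors of weight `lam` in a representation `ρ` of `GL_n` on `M`
(`ρ` is given on all square matrices): the vectors `x` with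
`ρ(g) x = g_11^lam_1 ⋯ g_nn^lam_n x` for all `g` in the Borel subgroup of upper triangular
matrices. For a polynomial representation and a partition `lam` its dimension is the multiplicity
of the irreducible representation (Schur module) with highest weight `lam`. -/
def hwSpace {n : ℕ} (lam : Fin n → ℕ) {M : Type*} [AddCommMonoid M] [Module ℂ M]
    (ρ : Matrix (Fin n) (Fin n) ℂ → M →ₗ[ℂ] M) : Submodule ℂ M where
  carrier := {x | ∀ g, IsBorel g → ρ g x = (∏ i, g i i ^ lam i) • x}
  add_mem' := by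
    intro x y hx hy g hg
    rw [map_add, hx g hg, hy g hg, smul_add]
  zero_mem' := by
    intro g _
    rw [map_zero, smul_zero]
  smul_mem' := by
    intro c x hx g hg
    rw [map_smul, hx g hg, smul_comm]

/-- The space `Sym^a(Sym^b V)` for `V = ℂ^n`. -/
def Pleth (a b n : ℕ) : Type := Sym[ℂ]^a (Sym[ℂ]^b (Fin n → ℂ))

noncomputable instance (a b n : ℕ) : AddCommMonoid (Pleth a b n) :=
  inferInstanceAs (AddCommMonoid (Sym[ℂ]^a (Sym[ℂ]^b (Fin n → ℂ))))

noncomputable instance (a b n : ℕ) : Module ℂ (Pleth a b n) :=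
  inferInstanceAs (Module ℂ (Sym[ℂ]^a (Sym[ℂ]^b (Fin n → ℂ))))

/-- The action of matrices on `Sym^a(Sym^b ℂ^n)`. -/
noncomputable def plethAct (a b n : ℕ) (g : Matrix (Fin n) (Fin n) ℂ) :
    Pleth a b n →ₗ[ℂ] Pleth a b n :=
  symMap a (symMap b (Matrix.toLin' g))

/-- The multiplicity of the Schur module `S_lam(ℂ^n)` in `Sym^a(Sym^b ℂ^n)`. -/
noncomputable def plethMult (a b n : ℕ) (lam : Fin n → ℕ) : ℕ :=
  Module.finrank ℂ (hwSpace lam (plethAct a b n))

/-- `Ψ` commutes with the action of all matrices, so it is `GL_n`-equivariant. -/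
def IsEquivariant {a b n : ℕ} (Ψ : Pleth a b n →ₗ[ℂ] Pleth b a n) : Prop :=
  ∀ g x, Ψ (plethAct a b n g x) = plethAct b a n g (Ψ x)

/-- `Ψ` is injective on the highest weight vectors of weight `lam`. -/
def InjOnHW {a b n : ℕ} (Ψ : Pleth a b n →ₗ[ℂ] Pleth b a n) (lam : Fin n → ℕ) : Prop :=
  ∀ x ∈ hwSpace lam (plethAct a b n), Ψ x = 0 → x = 0

end Vale.Agent.P181.H280
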