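import Vale.Agent.P181.H280.Main

set_option autoImplicit false

open scoped TensorProduct

namespace Vale.Agent.P181.H280

open Vale.Agent.P181

variable {n : ℕ}

lemma powMap_hwSpace {a q : ℕ} (lam : Fin n → ℕ)
    (x : Sym[ℂ]^a (Sym[ℂ]^(q * a) (Fin n → ℂ))) (hx : x ∈ hwSpace lam (plethAct a (q * a) n)) :
    powMap a q (Fin n → ℂ) x ∈ hwSpace lam (plethAct (q * a) a n) := by
  intro g hg
  have h1 := LinearMap.congr_fun (powMap_equivariant a q (Matrix.toLin' g)) x
  rw [LinearMap.comp_apply, LinearMap.comp_apply] at h1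
  have h2 : symMap a (symMap (q * a) (Matrix.toLin' g)) x = (∏ i, g i i ^ lam i) • x := hx g hg
  rw [h2, map_smul] at h1
  exact h1.symm

lemma finrank_le_of_inj {M N : Type} [AddCommMonoid M] [Module ℂ M] [AddCommMonoid N] [Module ℂ N]
    [Module.Finite ℂ N] (f : M →ₗ[ℂ] N) (S : Submodule ℂ M) (T : Submodule ℂ N)
    (hST : ∀ x ∈ S, f x ∈ T) (hinj : ∀ x ∈ S, f x = 0 → x = 0) :
    Module.finrank ℂ S ≤ Module.finrank ℂ T := by
  letI := Module.addCommMonoidToAddCommGroup ℂ (M := M)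
  letI := Module.addCommMonoidToAddCommGroup ℂ (M := N)
  let g : S →ₗ[ℂ] T := (f.domRestrict S).codRestrict T (fun x => hST x x.2)
  have hg : Function.Injective g := by
    rw [injective_iff_map_eq_zero]
    intro x hx
    have h1 : f x = 0 := congrArg Subtype.val hx
    exact Subtype.ext (hinj x x.2 h1)
  exact LinearMap.finrank_le_finrank_of_injective hg

theorem plethMult_le {a q : ℕ} (ha : 2 ≤ a) (hq : 2 ≤ q) (h : a ≤ n) (lam : Fin n → ℕ)
    (hlam : ∀ i : Fin n, (i : ℕ) < a → 2 * q ≤ lam i + 3) :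
    plethMult a (q * a) n lam ≤ plethMult (q * a) a n lam :=
  finrank_le_of_inj (powMap a q (Fin n → ℂ)) _ _ (fun x hx => powMap_hwSpace lam x hx)
    (fun x hx h0 => powMap_injOn ha hq h lam hlam x hx h0)

end Vale.Agent.P181.H280
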