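import Vale.Agent.P181.H280.Pow

set_option autoImplicit false

open scoped TensorProduct

namespace Vale.Agent.P181.H280

open Vale.Agent.P181

section Alg

variable {A : Type*} [CommRing A] [Algebra ℂ A]

lemma multilinear_zero_of_span {κ : Type*} [Fintype κ] {M N : Type*} [AddCommGroup M] [Module ℂ M]
    [AddCommGroup N] [Module ℂ N] (Φ : MultilinearMap ℂ (fun _ : κ => M) N) (S : Set M)
    (h : ∀ w : κ → M, (∀ i, w i ∈ S) → Φ w = 0) (w : κ → M)
    (hw : ∀ i, w i ∈ Submodule.span ℂ S) : Φ w = 0 := by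
  classical
  have h1 : ∀ i, ∃ l : S →₀ ℂ, Finsupp.linearCombination ℂ (Subtype.val : S → M) l = w i := by
    intro i
    rw [← Finsupp.mem_span_iff_linearCombination]
    exact hw i
  choose l hl using h1
  have h2 : w = fun i => ∑ r ∈ (l i).support, (l i r) • (r : M) := by
    funext i
    rw [← hl i, Finsupp.linearCombination_apply, Finsupp.sum]
  rw [h2, MultilinearMap.map_sum_finset]
  apply Finset.sum_eq_zero
  intro r _
  rw [MultilinearMap.map_smul_univ, h _ (fun i => (r i).2), smul_zero]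

lemma deriv_prod {b : ℕ} (D : Derivation ℂ A A) (y : Fin b → A) :
    D (∏ j, y j) = ∑ s, ∏ j, Function.update y s (D (y s)) j := by
  induction b with
  | zero => simp
  | succ b ih =>
    rw [Fin.prod_univ_succ, Derivation.leibniz, ih, Fin.sum_univ_succ]
    have h1 : ∏ j, Function.update y 0 (D (y 0)) j = (∏ j : Fin b, y j.succ) • D (y 0) := by
      rw [Fin.prod_univ_succ, Function.update_self, smul_eq_mul, mul_comm]
      congr 1
    have h2 : ∀ s : Fin b, ∏ j, Function.update y s.succ (D (y s.succ)) j =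
        y 0 * ∏ j, Function.update (fun j : Fin b => y j.succ) s (D (y s.succ)) j := by
      intro s
      rw [Fin.prod_univ_succ, Function.update_of_ne (Fin.succ_ne_zero s).symm]
      congr 1
      apply Finset.prod_congr rfl
      intro j _
      by_cases hj : j = s
      · subst hj; simp
      · rw [Function.update_of_ne hj, Function.update_of_ne (fun h => hj (Fin.succ_injective _ h))]
    rw [h1, Finset.sum_congr rfl (fun s _ => h2 s), ← Finset.mul_sum, smul_eq_mul, add_comm]

/-- The multilinear map `P ↦ ∑_i F(P_1, …, δ P_i, …, P_a)`. -/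
noncomputable def opForm {a : ℕ} (δ : A →ₗ[ℂ] A) (F : MultilinearMap ℂ (fun _ : Fin a => A) ℂ) :
    MultilinearMap ℂ (fun _ : Fin a => A) ℂ :=
  ∑ i, F.compLinearMap (Function.update (fun _ => LinearMap.id) i δ)

lemma opForm_apply {a : ℕ} (δ : A →ₗ[ℂ] A) (F : MultilinearMap ℂ (fun _ : Fin a => A) ℂ)
    (P : Fin a → A) : opForm δ F P = ∑ i, F (Function.update P i (δ (P i))) := by
  simp only [opForm, _root_.sum_apply, MultilinearMap.compLinearMap_apply]
  apply Finset.sum_congr rfl
  intro i _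
  congr 1
  funext j
  by_cases hj : j = i
  · subst hj; simp
  · rw [Function.update_of_ne hj, Function.update_of_ne hj]
    rfl

lemma span_pow_eq {ι : Type*} (z : ι → A) (b : ℕ) : (Submodule.span ℂ (Set.range z)) ^ b ≤
    Submodule.span ℂ (Set.range (fun c : Fin b → ι => ∏ j, z (c j))) := by
  induction b with
  | zero =>
    rw [pow_zero, Submodule.one_eq_span]
    apply Submodule.span_mono
    rintro _ rfl
    exact ⟨fun j => j.elim0, by simp⟩
  | succ b ih =>
    rw [pow_succ']
    refine (mul_le_mul' (le_refl (Submodule.span ℂ (Set.range z))) ih).trans ?_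
    rw [Submodule.span_mul_span, Submodule.span_le]
    rintro _ ⟨_, ⟨i, rfl⟩, _, ⟨c, rfl⟩, rfl⟩
    apply Submodule.subset_span
    refine ⟨Fin.cons i c, ?_⟩
    simp only
    rw [Fin.prod_univ_succ]
    simp

end Alg

section HW

variable {n : ℕ}

/-- Evaluation of polynomials. -/
noncomputable def evL (n : ℕ) : MvPolynomial (Fin n) ℂ →ₗ[ℂ] ((Fin n → ℂ) → ℂ) :=
  LinearMap.pi (fun v => (MvPolynomial.aeval (R := ℂ) v).toLinearMap)

lemma evL_apply (P : MvPolynomial (Fin n) ℂ) (v : Fin n → ℂ) :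
    evL n P v = MvPolynomial.aeval (R := ℂ) v P := rfl

lemma evL_prod {b : ℕ} (P : Fin b → MvPolynomial (Fin n) ℂ) :
    evL n (∏ j, P j) = ∏ j, evL n (P j) := by
  funext v
  rw [evL_apply, map_prod, Finset.prod_apply]
  rfl

/-- The form attached to a combination of arrays of vectors. -/
noncomputable def formOf {a b : ℕ} (l : (Fin a → Fin b → (Fin n → ℂ)) →₀ ℂ) :
    MultilinearMap ℂ (fun _ : Fin a => MvPolynomial (Fin n) ℂ) ℂ :=
  ∑ v ∈ l.support, l v • (rowForm v).compLinearMap (fun _ => evL n)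

/-- The element of `Sym^a(Sym^b V)` attached to a combination of arrays of vectors. -/
noncomputable def elOf {a b : ℕ} (l : (Fin a → Fin b → (Fin n → ℂ)) →₀ ℂ) :
    Sym[ℂ]^a (Sym[ℂ]^b (Fin n → ℂ)) :=
  ∑ v ∈ l.support, l v • SymmetricPower.tprod ℂ (fun i => SymmetricPower.tprod ℂ (v i))

lemma exists_elOf {a b : ℕ} (x : Sym[ℂ]^a (Sym[ℂ]^b (Fin n → ℂ))) :
    ∃ l : (Fin a → Fin b → (Fin n → ℂ)) →₀ ℂ, elOf l = x := by
  have hxs : x ∈ Submodule.span ℂ (Set.range (fun v : Fin a → Fin b → (Fin n → ℂ) =>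
      SymmetricPower.tprod ℂ (fun i => SymmetricPower.tprod ℂ (v i)))) := by
    rw [span_pure]; trivial
  rw [Finsupp.mem_span_range_iff_exists_finsupp] at hxs
  obtain ⟨l, hl⟩ := hxs
  exact ⟨l, hl⟩

lemma formOf_apply {a b : ℕ} (l : (Fin a → Fin b → (Fin n → ℂ)) →₀ ℂ)
    (P : Fin a → MvPolynomial (Fin n) ℂ) : formOf l P = ∑ v ∈ l.support, l v *
      ∑ σ : Equiv.Perm (Fin a), ∏ i, ryser (v (σ i)) (evL n (P i)) := by
  simp only [formOf, _root_.sum_apply, smul_apply, MultilinearMap.compLinearMap_apply,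
    rowForm_apply, smul_eq_mul]

lemma formOf_symm {a b : ℕ} (l : (Fin a → Fin b → (Fin n → ℂ)) →₀ ℂ) : IsSymm (formOf l) := by
  intro τ P
  simp only [formOf, _root_.sum_apply, smul_apply, MultilinearMap.compLinearMap_apply]
  apply Finset.sum_congr rfl
  intro v _
  rw [rowForm_symm v τ (fun i => evL n (P i))]

/-- The pairing of the form with products of linear forms. -/
lemma formOf_lin {a b : ℕ} (l : (Fin a → Fin b → (Fin n → ℂ)) →₀ ℂ)
    (p : Fin a → Fin b → MvPolynomial (Fin n) ℂ) (ξ : Fin a → Fin b → Module.Dual ℂ (Fin n → ℂ))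
    (h : ∀ i j, evL n (p i j) = fun v => ξ i j v) :
    formOf l (fun i => ∏ j, p i j) = symEval (fun i => symEval (ξ i)) (elOf l) := by
  rw [formOf_apply, elOf, map_sum]
  apply Finset.sum_congr rfl
  intro v _
  rw [map_smul, smul_eq_mul, symEval_tprod]
  congr 1
  apply Finset.sum_congr rfl
  intro σ _
  apply Finset.prod_congr rfl
  intro i _
  rw [evL_prod, symEval_tprod, ← ryser_prod]
  congr 1
  apply Finset.prod_congr rfl
  intro j _
  exact h i j

/-- A linear functional as a linear polynomial. -/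
noncomputable def linP (ξ : Module.Dual ℂ (Fin n → ℂ)) : MvPolynomial (Fin n) ℂ :=
  ∑ j, ξ (Pi.single j 1) • MvPolynomial.X j

lemma evL_linP (ξ : Module.Dual ℂ (Fin n → ℂ)) : evL n (linP ξ) = fun v => ξ v := by
  funext v
  rw [evL_apply, linP, map_sum]
  simp only [map_smul, MvPolynomial.aeval_X, smul_eq_mul]
  conv_rhs => rw [← Finset.univ_sum_single v]
  rw [map_sum]
  apply Finset.sum_congr rfl
  intro j _
  have h1 : (Pi.single j (v j) : Fin n → ℂ) = v j • Pi.single j 1 := by
    rw [← Pi.single_smul, smul_eq_mul, mul_one]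
  rw [h1, map_smul, smul_eq_mul, mul_comm]

/-- Linear forms. -/
noncomputable def linS (n : ℕ) : Submodule ℂ (MvPolynomial (Fin n) ℂ) :=
  Submodule.span ℂ (Set.range (MvPolynomial.X : Fin n → MvPolynomial (Fin n) ℂ))

lemma X_mem_linS (i : Fin n) : (MvPolynomial.X i : MvPolynomial (Fin n) ℂ) ∈ linS n :=
  Submodule.subset_span ⟨i, rfl⟩

lemma linP_mem (ξ : Module.Dual ℂ (Fin n → ℂ)) : linP ξ ∈ linS n :=
  Submodule.sum_mem _ (fun j _ => Submodule.smul_mem _ _ (X_mem_linS j))

lemma exists_dual {ζ : MvPolynomial (Fin n) ℂ} (h : ζ ∈ linS n) :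
    ∃ ξ : Module.Dual ℂ (Fin n → ℂ), evL n ζ = fun v => ξ v := by
  induction h using Submodule.span_induction with
  | mem x hx =>
    obtain ⟨i, rfl⟩ := hx
    refine ⟨LinearMap.proj i, ?_⟩
    funext v
    rw [evL_apply, MvPolynomial.aeval_X]
    rfl
  | zero => exact ⟨0, by rw [map_zero]; rfl⟩
  | add x y _ _ hx hy =>
    obtain ⟨ξ, hξ⟩ := hx
    obtain ⟨η, hη⟩ := hy
    refine ⟨ξ + η, ?_⟩
    rw [map_add, hξ, hη]
    rfl
  | smul c x _ hx =>
    obtain ⟨ξ, hξ⟩ := hx
    refine ⟨c • ξ, ?_⟩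
    rw [map_smul, hξ]
    rfl

/-- The form determines the element. -/
lemma elOf_eq_zero {a b : ℕ} (l : (Fin a → Fin b → (Fin n → ℂ)) →₀ ℂ)
    (h : ∀ P : Fin a → MvPolynomial (Fin n) ℂ, (∀ i, P i ∈ linS n ^ b) → formOf l P = 0) :
    elOf l = 0 := by
  have hspan : Submodule.span ℂ (Set.range (fun ξ : Fin b → Module.Dual ℂ (Fin n → ℂ) =>
      (symEval ξ : (Sym[ℂ]^b (Fin n → ℂ)) →ₗ[ℂ] ℂ))) =
      (⊤ : Submodule ℂ (Module.Dual ℂ (Sym[ℂ]^b (Fin n → ℂ)))) := by
    set W := Submodule.span ℂ (Set.range (fun ξ : Fin b → Module.Dual ℂ (Fin n → ℂ) =>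
      (symEval ξ : (Sym[ℂ]^b (Fin n → ℂ)) →ₗ[ℂ] ℂ))) with hW
    have h1 : W.dualCoannihilator = ⊥ := by
      rw [eq_bot_iff]
      intro y hy
      rw [Submodule.mem_dualCoannihilator] at hy
      rw [Submodule.mem_bot]
      apply symEval_separates Set.univ Submodule.span_univ
      intro lam _
      exact hy _ (Submodule.subset_span ⟨lam, rfl⟩)
    have h2 := Subspace.dualCoannihilator_dualAnnihilator_eq (W := W)
    rw [h1] at h2
    rw [← h2]
    exact Submodule.dualAnnihilator_bot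
  apply symEval_separates _ hspan
  intro lam hlam
  choose ξ hξ using hlam
  have hlam' : lam = fun i => symEval (ξ i) := by
    funext i; exact (hξ i).symm
  rw [hlam', ← formOf_lin l (fun i j => linP (ξ i j)) ξ (fun i j => evL_linP _)]
  apply h
  intro i
  exact prod_mem_pow _ _ (fun j => linP_mem _)

/-- Functoriality of the pairing. -/
lemma symEval_act {a b : ℕ} (g : (Fin n → ℂ) →ₗ[ℂ] (Fin n → ℂ))
    (ξ : Fin a → Fin b → Module.Dual ℂ (Fin n → ℂ)) (x : Sym[ℂ]^a (Sym[ℂ]^b (Fin n → ℂ))) :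
    symEval (fun i => symEval (ξ i)) (symMap a (symMap b g) x) =
      symEval (fun i => symEval (fun j => (ξ i j) ∘ₗ g)) x := by
  have h : symEval (fun i => symEval (ξ i)) ∘ₗ symMap a (symMap b g) =
      symEval (fun i => symEval (fun j => (ξ i j) ∘ₗ g)) := by
    apply pure_hom_ext
    intro v
    rw [LinearMap.comp_apply, symMap_tprod]
    simp only [symMap_tprod, symEval_tprod, LinearMap.comp_apply]
  rw [← h]
  rfl

/-- The power map on forms. -/
lemma formOf_pow {a q : ℕ} (l : (Fin a → Fin (q * a) → (Fin n → ℂ)) →₀ ℂ)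
    (h0 : powMap a q (Fin n → ℂ) (elOf l) = 0) (G : MvPolynomial (Fin n) ℂ)
    (hG : G ∈ linS n ^ a) : formOf l (fun _ => G ^ q) = 0 := by
  classical
  let cp : Equiv.Perm (Fin (q * a)) → (Fin a × Fin q ≃ Fin (q * a)) := fun p =>
    ((Equiv.prodComm _ _).trans finProdFinEquiv).trans p
  have hcp : ∀ p i k, cp p (i, k) = p (finProdFinEquiv (k, i)) := fun p i k => rfl
  let Φ : MultilinearMap ℂ (fun _ : Fin (q * a) => MvPolynomial (Fin n) ℂ) ℂ :=
    ∑ p : Equiv.Perm (Fin (q * a)), (rowProd q (formOf l)).domDomCongr (cp p)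
  have hΦ : ∀ y, Φ y = ∑ p : Equiv.Perm (Fin (q * a)),
      formOf l (fun i => ∏ k : Fin q, y (p (finProdFinEquiv (k, i)))) := by
    intro y
    simp only [Φ, _root_.sum_apply, MultilinearMap.domDomCongr_apply, rowProd_apply, hcp]
  have hvan : ∀ y : Fin (q * a) → MvPolynomial (Fin n) ℂ,
      (∀ j, y j ∈ ((fun ζ => ζ ^ a) '' (linS n : Set (MvPolynomial (Fin n) ℂ)))) → Φ y = 0 := by
    intro y hy
    choose ζ hζ hyζ using hy
    choose ξ hξ using fun j => exists_dual (hζ j)
    rw [hΦ]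
    have h1 : ∀ (p : Equiv.Perm (Fin (q * a))) (i : Fin a),
        evL n (∏ k : Fin q, y (p (finProdFinEquiv (k, i)))) =
        ∏ t : Fin (q * a),
          (fun w => ξ (p (finProdFinEquiv ((finProdFinEquiv.symm t).1, i))) w) := by
      intro p i
      rw [evL_prod, ← Equiv.prod_comp finProdFinEquiv, Fintype.prod_prod_type]
      apply Finset.prod_congr rfl
      intro k _
      simp only [Equiv.symm_apply_apply, Finset.prod_const, Finset.card_univ, Fintype.card_fin]
      funext w
      rw [← hyζ, evL_apply, map_pow, Pi.pow_apply, ← evL_apply, hξ]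
    simp only [formOf_apply, h1]
    have h2 := congrArg (symEval (fun j => evalPow a (ξ j))) h0
    rw [map_zero, elOf, map_sum, map_sum] at h2
    simp only [map_smul, symEval_powMap, smul_eq_mul] at h2
    rw [Finset.sum_comm]
    have h3 : ∀ v : Fin a → Fin (q * a) → (Fin n → ℂ), ∀ σ : Equiv.Perm (Fin a),
        ∑ p : Equiv.Perm (Fin (q * a)), ∏ i, ryser (v (σ i)) (∏ t : Fin (q * a),
          (fun w => ξ (p (finProdFinEquiv ((finProdFinEquiv.symm t).1, i))) w)) =
        ∑ p : Equiv.Perm (Fin (q * a)), ∏ i, ryser (v i) (∏ t : Fin (q * a),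
          (fun w => ξ (p (finProdFinEquiv ((finProdFinEquiv.symm t).1, i))) w)) := by
      intro v σ
      rw [← Equiv.sum_comp (Equiv.mulRight (blockPerm a q σ))]
      apply Finset.sum_congr rfl
      intro p _
      rw [← Equiv.prod_comp σ (fun i => ryser (v i) (∏ t : Fin (q * a),
        (fun w => ξ (p (finProdFinEquiv ((finProdFinEquiv.symm t).1, i))) w)))]
      apply Finset.prod_congr rfl
      intro i _
      congr 1
      apply Finset.prod_congr rfl
      intro t _
      simp only [Equiv.coe_mulRight, Equiv.Perm.coe_mul, Function.comp_apply]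
      have h4 : blockPerm a q σ (finProdFinEquiv ((finProdFinEquiv.symm t).1, i)) =
          finProdFinEquiv ((finProdFinEquiv.symm t).1, σ i) := by
        simp only [blockPerm, Equiv.trans_apply, Equiv.symm_apply_apply]
        rfl
      rw [h4]
    have h5 : ∀ v ∈ l.support, ∑ p : Equiv.Perm (Fin (q * a)), l v *
        ∑ σ : Equiv.Perm (Fin a), ∏ i, ryser (v (σ i)) (∏ t : Fin (q * a),
          (fun w => ξ (p (finProdFinEquiv ((finProdFinEquiv.symm t).1, i))) w)) =
        (Fintype.card (Equiv.Perm (Fin a)) : ℂ) * (l v *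
        ∑ p : Equiv.Perm (Fin (q * a)), ∏ i, ryser (v i) (∏ t : Fin (q * a),
          (fun w => ξ (p (finProdFinEquiv ((finProdFinEquiv.symm t).1, i))) w))) := by
      intro v _
      rw [← Finset.mul_sum, Finset.sum_comm, Finset.sum_congr rfl (fun σ _ => h3 v σ),
        Finset.sum_const, nsmul_eq_mul, Finset.card_univ]
      ring
    rw [Finset.sum_congr rfl h5, ← Finset.mul_sum, h2, mul_zero]
  have hG' : Φ (fun _ => G) = 0 :=
    multilinear_zero_of_span Φ _ hvan (fun _ => G) (fun _ => pow_le_span_pow _ _ hG)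
  rw [hΦ] at hG'
  simp only [Finset.prod_const, Finset.card_univ, Fintype.card_fin, Finset.sum_const,
    nsmul_eq_mul] at hG'
  refine (mul_eq_zero.1 hG').resolve_left ?_
  exact_mod_cast Fintype.card_ne_zero

end HW

end Vale.Agent.P181.H280
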