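import Vale.Agent.P181.H280.Form

set_option autoImplicit false

open scoped TensorProduct

namespace Vale.Agent.P181.H280

open Vale.Agent.P181 MvPolynomial

section Alg

variable {A : Type*} [CommRing A] [Algebra ℂ A]

lemma rowProd_update {a b : ℕ} (F : MultilinearMap ℂ (fun _ : Fin a => A) ℂ)
    (y : Fin a × Fin b → A) (i : Fin a) (s : Fin b) (z : A) :
    rowProd b F (Function.update y (i, s) z) =
      F (Function.update (fun i => ∏ j, y (i, j)) i
        (∏ j, Function.update (fun j => y (i, j)) s z j)) := by
  rw [rowProd_apply]
  congr 1
  funext i'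
  by_cases hi : i' = i
  · subst hi
    rw [Function.update_self]
    apply Finset.prod_congr rfl
    intro j _
    by_cases hj : j = s
    · subst hj; simp
    · rw [Function.update_of_ne hj, Function.update_of_ne]
      intro h
      exact hj (congrArg Prod.snd h)
  · rw [Function.update_of_ne hi]
    apply Finset.prod_congr rfl
    intro j _
    rw [Function.update_of_ne]
    intro h
    exact hi (congrArg Prod.fst h)

lemma opForm_prod {a b : ℕ} (D : Derivation ℂ A A) (F : MultilinearMap ℂ (fun _ : Fin a => A) ℂ)
    (y : Fin a × Fin b → A) : opForm D.toLinearMap F (fun i => ∏ j, y (i, j)) =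
      ∑ p, rowProd b F (Function.update y p (D (y p))) := by
  rw [opForm_apply, Fintype.sum_prod_type]
  apply Finset.sum_congr rfl
  intro i _
  have h1 : D.toLinearMap (∏ j, y (i, j)) =
      ∑ s, ∏ j, Function.update (fun j => y (i, j)) s (D (y (i, s))) j :=
    deriv_prod D (fun j => y (i, j))
  rw [h1, MultilinearMap.map_update_sum]
  apply Finset.sum_congr rfl
  intro s _
  rw [rowProd_update]

end Alg

variable {n : ℕ}

lemma evL_X (j : Fin n) : evL n (X j) = fun v => v j := by
  funext v
  rw [evL_apply, aeval_X]

/-- Highest weight vectors give highest weight forms. -/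
theorem hwForm_formOf {a b : ℕ} (h : a ≤ n) (lam : Fin n → ℕ)
    (l : (Fin a → Fin b → (Fin n → ℂ)) →₀ ℂ) (hx : elOf l ∈ hwSpace lam (plethAct a b n)) :
    HWForm (fun i : Fin a => (X (Fin.castLE h i) : MvPolynomial (Fin n) ℂ))
      (fun i => pderiv (Fin.castLE h i)) (fun b => linS n ^ b) b
      (fun i => (lam (Fin.castLE h i) : ℂ)) (formOf l) := by
  classical
  intro m k hmk P hP
  set M := Fin.castLE h m with hM
  set K := Fin.castLE h k with hK
  have hMK : M ≤ K := hmk
  let D' : Derivation ℂ (MvPolynomial (Fin n) ℂ) (MvPolynomial (Fin n) ℂ) :=
    (X K : MvPolynomial (Fin n) ℂ) • pderiv M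
  have hD' : ∀ Q, D' Q = X K * pderiv M Q := fun Q => rfl
  have hD'X : ∀ j, D' (X j) = if j = M then X K else 0 := by
    intro j
    rw [hD']
    by_cases hj : j = M
    · rw [hj, pderiv_X_self, if_pos rfl, mul_one]
    · rw [pderiv_X_of_ne hj, if_neg hj, mul_zero]
  let c0 : ℂ := if k = m then (lam M : ℂ) else 0
  let Φ : MultilinearMap ℂ (fun _ : Fin a => MvPolynomial (Fin n) ℂ) ℂ :=
    opForm D'.toLinearMap (formOf l) - c0 • formOf l
  have hΦ : Φ P = 0 := by
    apply multilinear_zero_of_span Φ
      (Set.range (fun c : Fin b → Fin n => ∏ j, (X (c j) : MvPolynomial (Fin n) ℂ)))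
    · intro w hw
      choose c hc using hw
      let y : Fin a × Fin b → MvPolynomial (Fin n) ℂ := fun p => X (c p.1 p.2)
      have hw' : w = fun i => ∏ j, y (i, j) := by
        funext i
        exact (hc i).symm
      -- the action of a matrix
      have hact : ∀ (g : Matrix (Fin n) (Fin n) ℂ) (p : Fin a → Fin b → MvPolynomial (Fin n) ℂ),
          IsBorel g → (∀ i j, evL n (p i j) = fun v => (Matrix.toLin' g v) (c i j)) →
          formOf l (fun i => ∏ j, p i j) = (∏ i, g i i ^ lam i) * formOf l w := by
        intro g p hg hp
        have h1 := formOf_lin l p (fun i j => (LinearMap.proj (c i j)) ∘ₗ Matrix.toLin' g)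
          (fun i j => hp i j)
        rw [h1, ← symEval_act (Matrix.toLin' g) (fun i j => LinearMap.proj (c i j)) (elOf l)]
        have h2 : symMap a (symMap b (Matrix.toLin' g)) (elOf l) =
            (∏ i, g i i ^ lam i) • elOf l := hx g hg
        rw [h2, map_smul, smul_eq_mul]
        congr 1
        rw [hw']
        exact (formOf_lin l (fun i j => X (c i j)) (fun i j => LinearMap.proj (c i j))
          (fun i j => evL_X _)).symm
      have hΦw : Φ w = ∑ p, rowProd b (formOf l) (Function.update y p (D' (y p))) -
          c0 * formOf l w := by
        have h1 := opForm_prod D' (formOf l) y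
        rw [← hw'] at h1
        rw [← h1]
        rfl
      rw [hΦw]
      rcases eq_or_lt_of_le hmk with hkm | hkm
      · -- weights
        have hKM : K = M := by rw [hK, hM, hkm]
        have hc0 : c0 = lam M := if_pos hkm.symm
        have h1 : ∀ p, rowProd b (formOf l) (Function.update y p (D' (y p))) =
            (if c p.1 p.2 = M then 1 else 0) * formOf l w := by
          intro p
          simp only [y]
          rw [hD'X]
          split_ifs with hcp
          · rw [one_mul, hKM, ← hcp, hw']
            have h2 : Function.update (fun p : Fin a × Fin b =>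
                (X (c p.1 p.2) : MvPolynomial (Fin n) ℂ)) p (X (c p.1 p.2)) = y :=
              Function.update_eq_self p y
            rw [h2, rowProd_apply]
          · rw [zero_mul]
            exact MultilinearMap.map_update_zero _ _ _
        rw [Finset.sum_congr rfl (fun p _ => h1 p), ← Finset.sum_mul, hc0, ← sub_mul]
        by_cases hz : formOf l w = 0
        · rw [hz, mul_zero]
        · have h3 := hact (Matrix.diagonal (Function.update 1 M 2))
            (fun i j => (Function.update (1 : Fin n → ℂ) M 2 (c i j)) • X (c i j)) (by
              constructor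
              · intro i j hij
                exact Matrix.diagonal_apply_ne _ hij.ne'
              · intro i
                rw [Matrix.diagonal_apply_eq]
                by_cases hi : i = M
                · rw [hi, Function.update_self]; norm_num
                · rw [Function.update_of_ne hi]; norm_num) (by
              intro i j
              rw [map_smul, evL_X]
              funext v
              rw [Matrix.toLin'_apply, Matrix.mulVec_diagonal]
              rfl)
          have h4 : formOf l (fun i => ∏ j,
              (Function.update (1 : Fin n → ℂ) M 2 (c i j)) • (X (c i j) : MvPolynomial (Fin n) ℂ)) =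
              (∏ p : Fin a × Fin b, Function.update (1 : Fin n → ℂ) M 2 (c p.1 p.2)) *
                formOf l w := by
            have h5 := MultilinearMap.map_smul_univ (rowProd b (formOf l))
              (fun p : Fin a × Fin b => Function.update (1 : Fin n → ℂ) M 2 (c p.1 p.2)) y
            rw [rowProd_apply, rowProd_apply, ← hw', smul_eq_mul] at h5
            exact h5
          rw [h4] at h3
          have h6 := mul_right_cancel₀ hz h3
          have h7 : ∏ p : Fin a × Fin b, Function.update (1 : Fin n → ℂ) M 2 (c p.1 p.2) =
              2 ^ (Finset.univ.filter (fun p : Fin a × Fin b => c p.1 p.2 = M)).card := by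
            rw [← Finset.prod_const, Finset.prod_filter]
            apply Finset.prod_congr rfl
            intro p _
            by_cases hp : c p.1 p.2 = M
            · rw [hp, Function.update_self, if_pos rfl]
            · rw [Function.update_of_ne hp, if_neg hp]
              rfl
          have h8 : ∏ i, (Matrix.diagonal (Function.update (1 : Fin n → ℂ) M 2)) i i ^ lam i =
              2 ^ lam M := by
            rw [Finset.prod_eq_single M]
            · rw [Matrix.diagonal_apply_eq, Function.update_self]
            · intro i _ hi
              rw [Matrix.diagonal_apply_eq, Function.update_of_ne hi]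
              simp
            · intro hh
              exact absurd (Finset.mem_univ _) hh
          rw [h7, h8] at h6
          have h9 : (Finset.univ.filter (fun p : Fin a × Fin b => c p.1 p.2 = M)).card =
              lam M := by
            have h10 : (2 : ℕ) ^ (Finset.univ.filter
                (fun p : Fin a × Fin b => c p.1 p.2 = M)).card = 2 ^ lam M := by
              exact_mod_cast h6
            exact Nat.pow_right_injective le_rfl h10
          have h11 : ∑ p : Fin a × Fin b, (if c p.1 p.2 = M then (1 : ℂ) else 0) = lam M := by
            rw [← h9, Finset.sum_boole]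
          rw [h11, sub_self, zero_mul]
      · -- raising operators
        have hMK' : M < K := hkm
        have hc0 : c0 = 0 := if_neg hkm.ne'
        rw [hc0, zero_mul, sub_zero]
        apply first_order' (rowProd b (formOf l)) y (fun p => D' (y p)) (formOf l w)
        intro t
        rw [rowProd_apply]
        have h3 := hact (Matrix.transvection M K t)
          (fun i j => y (i, j) + t • D' (y (i, j))) (by
            constructor
            · intro i j hij
              rw [Matrix.transvection, Matrix.add_apply, Matrix.one_apply_ne hij.ne',
                Matrix.single_apply_of_ne, add_zero]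
              rintro ⟨rfl, rfl⟩
              exact absurd hij (not_lt.2 hMK'.le)
            · intro i
              rw [Matrix.transvection, Matrix.add_apply, Matrix.one_apply_eq,
                Matrix.single_apply_of_ne, add_zero]
              · exact one_ne_zero
              · rintro ⟨rfl, h5⟩
                exact hMK'.ne h5.symm) (by
            intro i j
            simp only [y]
            rw [map_add, map_smul, hD'X, evL_X]
            funext v
            rw [Matrix.toLin'_apply, Matrix.transvection, Matrix.add_mulVec, Matrix.one_mulVec]
            rw [Pi.add_apply, Pi.add_apply, Pi.smul_apply]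
            congr 1
            by_cases hp : c i j = M
            · rw [if_pos hp, evL_X, hp]
              simp [Matrix.mulVec, dotProduct, Matrix.single_apply]
            · rw [if_neg hp, map_zero]
              simp [Matrix.mulVec, dotProduct, Ne.symm hp])
        rw [h3]
        have h8 : ∏ i, (Matrix.transvection M K t) i i ^ lam i = 1 := by
          apply Finset.prod_eq_one
          intro i _
          rw [Matrix.transvection, Matrix.add_apply, Matrix.one_apply_eq,
            Matrix.single_apply_of_ne, add_zero, one_pow]
          rintro ⟨rfl, h5⟩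
          exact hMK'.ne h5.symm
        rw [h8, one_mul]
    · intro i
      exact span_pow_eq _ _ (hP i)
  have h1 : Φ P = opForm D'.toLinearMap (formOf l) P - c0 * formOf l P := rfl
  rw [h1, sub_eq_zero, opForm_apply] at hΦ
  exact hΦ

lemma mul_mem_linS {b : ℕ} (j : Fin n) (P : MvPolynomial (Fin n) ℂ) (hP : P ∈ linS n ^ b) :
    X j * P ∈ linS n ^ (b + 1) := by
  rw [pow_succ']
  exact Submodule.mul_mem_mul (X_mem_linS j) hP

lemma pderiv_mem_linS {b : ℕ} (m : Fin n) (P : MvPolynomial (Fin n) ℂ)
    (hP : P ∈ linS n ^ (b + 1)) : pderiv m P ∈ linS n ^ b := by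
  classical
  have h1 := span_pow_eq _ _ hP
  clear hP
  induction h1 using Submodule.span_induction with
  | mem x hx =>
    obtain ⟨c, rfl⟩ := hx
    simp only
    rw [deriv_prod]
    apply Submodule.sum_mem
    intro s _
    rw [Finset.prod_update_of_mem (Finset.mem_univ s)]
    have h2 : ∏ j ∈ Finset.univ \ {s}, (X (c j) : MvPolynomial (Fin n) ℂ) ∈ linS n ^ b := by
      have h3 : ∀ T : Finset (Fin (b + 1)),
          ∏ j ∈ T, (X (c j) : MvPolynomial (Fin n) ℂ) ∈ linS n ^ T.card := by
        intro T
        induction T using Finset.induction with
        | empty =>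
          rw [Finset.prod_empty, Finset.card_empty, pow_zero]
          exact Submodule.mem_one.2 ⟨1, map_one _⟩
        | insert j T hj ih =>
          rw [Finset.prod_insert hj, Finset.card_insert_of_notMem hj]
          exact mul_mem_linS _ _ ih
      have h4 := h3 (Finset.univ \ {s})
      rw [Finset.card_sdiff_of_subset (Finset.subset_univ _), Finset.card_univ, Fintype.card_fin,
        Finset.card_singleton, Nat.add_sub_cancel] at h4
      exact h4
    by_cases hs : c s = m
    · rw [hs, pderiv_X_self, one_mul]
      exact h2
    · rw [pderiv_X_of_ne hs, zero_mul]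
      exact Submodule.zero_mem _
  | zero => rw [map_zero]; exact Submodule.zero_mem _
  | add x y _ _ hx hy => rw [map_add]; exact Submodule.add_mem _ hx hy
  | smul c x _ hx => rw [Derivation.map_smul]; exact Submodule.smul_mem _ _ hx

/-- The power map kills no highest weight vector with at least `2q - 3` columns of length `a`. -/
theorem powMap_injOn {a q : ℕ} (ha : 2 ≤ a) (hq : 2 ≤ q) (h : a ≤ n) (lam : Fin n → ℕ)
    (hlam : ∀ i : Fin n, (i : ℕ) < a → 2 * q ≤ lam i + 3)
    (x : Sym[ℂ]^a (Sym[ℂ]^(q * a) (Fin n → ℂ))) (hx : x ∈ hwSpace lam (plethAct a (q * a) n))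
    (h0 : powMap a q (Fin n → ℂ) x = 0) : x = 0 := by
  obtain ⟨l, rfl⟩ := exists_elOf x
  obtain ⟨q, rfl⟩ : ∃ q', q = q' + 2 := ⟨q - 2, by omega⟩
  apply elOf_eq_zero
  set xs : Fin a → MvPolynomial (Fin n) ℂ := fun i => X (Fin.castLE h i) with hxs
  have hb : 2 * q + 1 ≤ (q + 2) * a := by nlinarith only [ha]
  have htop := tall (linS n) ha xs (fun i => X_mem_linS _) q (formOf l) (formOf_symm l)
    (fun G hG => formOf_pow l h0 G hG)
  -- the iterated contractions are highest weight forms
  have hHW : ∀ j : ℕ, j ≤ (q + 2) * a →
      HWForm xs (fun i => pderiv (Fin.castLE h i)) (fun b => linS n ^ b) ((q + 2) * a - j)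
        (fun i => (lam (Fin.castLE h i) : ℂ) - j) ((altC xs)^[j] (formOf l)) := by
    intro j
    induction j with
    | zero =>
      intro _
      have h1 := hwForm_formOf h lam l hx
      simpa using h1
    | succ j ih =>
      intro hj
      have h1 := ih (by omega)
      have h2 : (q + 2) * a - j = ((q + 2) * a - (j + 1)) + 1 := by omega
      rw [h2] at h1
      have h3 := hwForm_altC (x := xs) (D := fun i => pderiv (Fin.castLE h i))
        (S := fun b => linS n ^ b) (by
          intro m k
          by_cases hkm : k = m
          · rw [hkm, if_pos rfl, hxs]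
            exact pderiv_X_self _
          · rw [if_neg hkm, hxs]
            exact pderiv_X_of_ne (fun hh => hkm (Fin.castLE_injective h hh)))
        (fun b k P hP => mul_mem_linS _ _ hP) h1
      rw [Function.iterate_succ_apply']
      have h4 : (fun i : Fin a => (lam (Fin.castLE h i) : ℂ) - ((j + 1 : ℕ) : ℂ)) =
          fun m => (fun i : Fin a => (lam (Fin.castLE h i) : ℂ) - (j : ℂ)) m - 1 := by
        funext i
        push_cast
        ring
      rw [h4]
      exact h3
  have hsgn : ∀ j : ℕ, IsSgn j ((altC xs)^[j] (formOf l)) := by
    intro j
    induction j with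
    | zero => exact IsSymm.isSgn (formOf_symm l)
    | succ j ih =>
      rw [Function.iterate_succ_apply']
      exact ih.altC xs
  have hdown : ∀ j : ℕ, j ≤ 2 * q + 1 → ∀ P : Fin a → MvPolynomial (Fin n) ℂ,
      (∀ i, P i ∈ linS n ^ ((q + 2) * a - (2 * q + 1 - j))) →
      ((altC xs)^[2 * q + 1 - j] (formOf l)) P = 0 := by
    intro j
    induction j with
    | zero =>
      intro _ P hP
      exact htop P hP
    | succ j ih =>
      intro hj P hP
      set r := 2 * q + 1 - (j + 1) with hr
      have hr1 : 2 * q + 1 - j = r + 1 := by omega
      have hrb : (q + 2) * a - r = ((q + 2) * a - (r + 1)) + 1 := by omega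
      have ihj := ih (by omega)
      rw [hr1, Function.iterate_succ_apply'] at ihj
      have h1 := hHW r (by omega)
      rw [hrb] at h1
      refine capelli (x := xs) (D := fun i => pderiv (Fin.castLE h i))
        (S := fun b => linS n ^ b) ?_ (fun b k P hP => mul_mem_linS _ _ hP)
        (fun b m P hP => pderiv_mem_linS _ _ hP) h1 (hsgn r) ?_ ihj P (by rw [← hrb]; exact hP)
      · intro m k
        by_cases hkm : k = m
        · rw [hkm, if_pos rfl, hxs]
          exact pderiv_X_self _
        · rw [if_neg hkm, hxs]
          exact pderiv_X_of_ne (fun hh => hkm (Fin.castLE_injective h hh))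
      · intro m
        have h2 := hlam (Fin.castLE h m) m.2
        have h3 : r < lam (Fin.castLE h m) := by omega
        obtain ⟨d, hd⟩ : ∃ d, lam (Fin.castLE h m) = r + 1 + d := ⟨_, (Nat.add_sub_of_le h3).symm⟩
        simp only [hd]
        have h5 : ((r + 1 + d : ℕ) : ℂ) - (r : ℂ) + ((a - 1 - (m : ℕ) : ℕ) : ℂ) =
            ((1 + d + (a - 1 - (m : ℕ)) : ℕ) : ℂ) := by
          rw [Nat.cast_add, Nat.cast_add r 1, Nat.cast_add, Nat.cast_add 1 d]
          push_cast
          ring
        rw [h5]
        rw [Nat.cast_ne_zero]
        omega
  have hfin := hdown (2 * q + 1) le_rfl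
  simpa using hfin

end Vale.Agent.P181.H280
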