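import Vale.Agent.P181.H280.Capelli
import Vale.Agent.P181.H280.Defs

set_option autoImplicit false

open scoped TensorProduct

namespace Vale.Agent.P181.H280

open Vale.Agent.P181

universe u

section PowerMap

variable {V : Type u} [AddCommGroup V] [Module ℂ V]

/-- The reindexing `(s, (k, i)) ↦ (i, (k, s))`. -/
def blockEquiv (a q : ℕ) : Fin a × Fin (q * a) ≃ Fin a × Fin (q * a) where
  toFun p := ((finProdFinEquiv.symm p.2).2, finProdFinEquiv ((finProdFinEquiv.symm p.2).1, p.1))
  invFun p := ((finProdFinEquiv.symm p.2).2, finProdFinEquiv ((finProdFinEquiv.symm p.2).1, p.1))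
  left_inv p := by
    simp only [Equiv.symm_apply_apply, Prod.mk.eta, Equiv.apply_symm_apply]
  right_inv p := by
    simp only [Equiv.symm_apply_apply, Prod.mk.eta, Equiv.apply_symm_apply]

lemma blockEquiv_apply (a q : ℕ) (s : Fin a) (j : Fin (q * a)) :
    blockEquiv a q (s, j) =
      ((finProdFinEquiv.symm j).2, finProdFinEquiv ((finProdFinEquiv.symm j).1, s)) := rfl

/-- Cut each of `a` rows of `q * a` vectors into `q` blocks of length `a`, and multiply. -/
noncomputable def blockMul (a q : ℕ) (V : Type u) [AddCommGroup V] [Module ℂ V] :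
    MultilinearMap ℂ (fun _ : Fin a × Fin (q * a) => V) (Sym[ℂ]^(q * a) (Sym[ℂ]^a V)) :=
  (colMul a (q * a) V).domDomCongr (blockEquiv a q)

lemma blockMul_apply (a q : ℕ) (v : Fin a × Fin (q * a) → V) : blockMul a q V v =
    SymmetricPower.tprod ℂ (fun j : Fin (q * a) => SymmetricPower.tprod ℂ (fun s : Fin a =>
      v ((finProdFinEquiv.symm j).2, finProdFinEquiv ((finProdFinEquiv.symm j).1, s)))) := rfl

variable [FiniteDimensional ℂ V]

/-- `blockMul` as a multilinear map of tensors (the rows). -/
noncomputable def powLift (a q : ℕ) (V : Type u) [AddCommGroup V] [Module ℂ V]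
    [FiniteDimensional ℂ V] :
    MultilinearMap ℂ (fun _ : Fin a => (⨂[ℂ] _ : Fin (q * a), V))
      (Sym[ℂ]^(q * a) (Sym[ℂ]^a V)) :=
  (exists_rowLift (blockMul a q V)).choose

lemma powLift_tprod (a q : ℕ) (v : Fin a → Fin (q * a) → V) :
    powLift a q V (fun i => PiTensorProduct.tprod ℂ (v i)) =
      SymmetricPower.tprod ℂ (fun j : Fin (q * a) => SymmetricPower.tprod ℂ (fun s : Fin a =>
        v (finProdFinEquiv.symm j).2 (finProdFinEquiv ((finProdFinEquiv.symm j).1, s)))) :=
  (exists_rowLift (blockMul a q V)).choose_spec v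

/-- The permutation of the blocks given by a permutation of the rows. -/
def blockPerm (a q : ℕ) (e : Equiv.Perm (Fin a)) : Equiv.Perm (Fin (q * a)) :=
  (finProdFinEquiv.symm.trans (Equiv.prodCongr (Equiv.refl _) e)).trans finProdFinEquiv

lemma blockPerm_symm_apply (a q : ℕ) (e : Equiv.Perm (Fin a)) (j : Fin (q * a)) :
    finProdFinEquiv.symm (blockPerm a q e j) =
      ((finProdFinEquiv.symm j).1, e (finProdFinEquiv.symm j).2) := by
  simp only [blockPerm, Equiv.trans_apply, Equiv.symm_apply_apply]
  rfl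

lemma powLift_symm (a q : ℕ) (e : Equiv.Perm (Fin a)) (t : Fin a → (⨂[ℂ] _ : Fin (q * a), V)) :
    powLift a q V (fun i => t (e i)) = powLift a q V t := by
  have h : (powLift a q V).domDomCongr e - powLift a q V = 0 := by
    ext1 t
    apply multilinear_eq_zero_of_span _ _
      (PiTensorProduct.span_tprod_eq_top (R := ℂ) (s := fun _ : Fin (q * a) => V))
    intro w hw
    choose v hv using hw
    have hw' : w = fun i => PiTensorProduct.tprod ℂ (v i) := by
      funext i; exact (hv i).symm
    subst hw'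
    rw [sub_apply, MultilinearMap.domDomCongr_apply,
      powLift_tprod a q (fun i => v (e i)), powLift_tprod]
    rw [sub_eq_zero]
    have h2 := SymmetricPower.tprod_equiv (R := ℂ) (blockPerm a q e) (fun j : Fin (q * a) =>
      SymmetricPower.tprod ℂ (fun s : Fin a =>
        v (finProdFinEquiv.symm j).2 (finProdFinEquiv ((finProdFinEquiv.symm j).1, s))))
    rw [← h2]
    congr 1
    funext j
    rw [blockPerm_symm_apply]
  have h1 := congrArg (fun g => g t) h
  simp only [sub_apply, MultilinearMap.domDomCongr_apply,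
    zero_apply, sub_eq_zero] at h1
  exact h1

/-- The power map `Sym^a(Sym^{qa} V) → Sym^{qa}(Sym^a V)`: cut each row into `q` blocks of length
`a` in all possible ways. In terms of polynomial functions it is `F ↦ (G ↦ F(G^q, …, G^q))`. -/
noncomputable def powMap (a q : ℕ) (V : Type u) [AddCommGroup V] [Module ℂ V]
    [FiniteDimensional ℂ V] :
    Sym[ℂ]^a (Sym[ℂ]^(q * a) V) →ₗ[ℂ] Sym[ℂ]^(q * a) (Sym[ℂ]^a V) :=
  symLift ((powLift a q V).compLinearMap (fun _ => symSum (Fin (q * a)) V)) (fun e v => by
    rw [MultilinearMap.compLinearMap_apply, MultilinearMap.compLinearMap_apply]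
    exact powLift_symm a q e (fun i => symSum (Fin (q * a)) V (v i)))

lemma powMap_tprod (a q : ℕ) (v : Fin a → Fin (q * a) → V) :
    powMap a q V (SymmetricPower.tprod ℂ (fun i => SymmetricPower.tprod ℂ (v i))) =
      ∑ σ : Fin a → Equiv.Perm (Fin (q * a)), SymmetricPower.tprod ℂ (fun j : Fin (q * a) =>
        SymmetricPower.tprod ℂ (fun s : Fin a =>
          v (finProdFinEquiv.symm j).2 (σ (finProdFinEquiv.symm j).2
            (finProdFinEquiv ((finProdFinEquiv.symm j).1, s))))) := by
  rw [powMap, symLift_tprod, MultilinearMap.compLinearMap_apply]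
  simp only [symSum_tprod]
  rw [MultilinearMap.map_sum]
  apply Finset.sum_congr rfl
  intro σ _
  exact powLift_tprod a q (fun i j => v i (σ i j))

lemma powMap_equivariant (a q : ℕ) (g : V →ₗ[ℂ] V) :
    powMap a q V ∘ₗ symMap a (symMap (q * a) g) =
      symMap (q * a) (symMap a g) ∘ₗ powMap a q V := by
  apply pure_hom_ext
  intro v
  rw [LinearMap.comp_apply, LinearMap.comp_apply, symMap_tprod, powMap_tprod, map_sum]
  have h1 : (fun i => symMap (q * a) g (SymmetricPower.tprod ℂ (v i))) =
      fun i => SymmetricPower.tprod ℂ (fun j => g (v i j)) := by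
    funext i; rw [symMap_tprod]
  rw [h1, powMap_tprod a q (fun i j => g (v i j))]
  apply Finset.sum_congr rfl
  intro σ _
  rw [symMap_tprod]
  congr 1
  funext j
  rw [symMap_tprod]

lemma prod_block {a q : ℕ} (f : Fin q → Fin a → ℂ) :
    ∏ j : Fin (q * a), f (finProdFinEquiv.symm j).1 (finProdFinEquiv.symm j).2 =
      ∏ i, ∏ k, f k i := by
  rw [Equiv.prod_comp finProdFinEquiv.symm (fun p : Fin q × Fin a => f p.1 p.2),
    Fintype.prod_prod_type, Finset.prod_comm]

/-- The functionals of `ℂ`-valued evaluation of the power map. -/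
lemma symEval_powMap {a q : ℕ} (v : Fin a → Fin (q * a) → V)
    (ξ : Fin (q * a) → Module.Dual ℂ V) :
    symEval (fun j => evalPow a (ξ j)) (powMap a q V
      (SymmetricPower.tprod ℂ (fun i => SymmetricPower.tprod ℂ (v i)))) =
    ∑ π : Equiv.Perm (Fin (q * a)), ∏ i, ryser (v i) (∏ t : Fin (q * a),
      (fun w => ξ (π (finProdFinEquiv ((finProdFinEquiv.symm t).1, i))) w)) := by
  rw [powMap_tprod, map_sum]
  simp only [symEval_tprod, evalPow_tprod, ryser_prod]
  rw [Finset.sum_comm]
  rw [← Equiv.sum_comp (Equiv.inv (Equiv.Perm (Fin (q * a))))]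
  apply Finset.sum_congr rfl
  intro π _
  simp only [Equiv.inv_apply]
  rw [Finset.prod_univ_sum, Fintype.piFinset_univ]
  apply Finset.sum_congr rfl
  intro σ _
  have h1 : ∀ i : Fin a, ∏ t : Fin (q * a),
      ξ (π (finProdFinEquiv ((finProdFinEquiv.symm t).1, i))) (v i (σ i t)) =
      ∏ k : Fin q, ∏ s : Fin a,
        ξ (π (finProdFinEquiv (k, i))) (v i (σ i (finProdFinEquiv (k, s)))) := by
    intro i
    rw [← Equiv.prod_comp finProdFinEquiv, Fintype.prod_prod_type]
    simp only [Equiv.symm_apply_apply]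
  rw [Finset.prod_congr rfl (fun i _ => h1 i)]
  rw [← Equiv.prod_comp π]
  have h2 : ∀ j : Fin (q * a), π⁻¹ (π j) = j := fun j => π.symm_apply_apply j
  simp only [h2]
  rw [← prod_block (fun k i => ∏ s : Fin a,
    ξ (π (finProdFinEquiv (k, i))) (v i (σ i (finProdFinEquiv (k, s)))))]
  apply Finset.prod_congr rfl
  intro j _
  rw [Prod.mk.eta, Equiv.apply_symm_apply]

end PowerMap

end Vale.Agent.P181.H280
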